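import Vale.Agent.P157.ParDefs

/-! The cascade for unbounded terminal conditions. -/

namespace Vale.Agent.N157

open MeasureTheory ProbabilityTheory Filter Topology Vale.Agent.P157.Par

/-- the standard Gaussian law -/
noncomputable abbrev gam : Measure ℝ := gaussianReal 0 1

/-- the centred Gaussian law with variance `q` -/
noncomputable def nu (q : ℝ) : Measure ℝ := gam.map fun z => √q * z

instance (q : ℝ) : IsProbabilityMeasure (nu q) :=
  Measure.isProbabilityMeasure_map (by fun_prop)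

theorem nu_eq {q : ℝ} (hq : 0 ≤ q) : nu q = gaussianReal 0 q.toNNReal := by
  rw [nu, gaussianReal_map_const_mul, mul_zero, mul_one]
  congr 1
  ext
  simp [Real.sq_sqrt hq, hq]

theorem nu_one : nu 1 = gam := by simp [nu]

theorem conv {q v : ℝ} (hq : 0 ≤ q) (hv : 0 ≤ v) :
    MeasurePreserving (fun p : ℝ × ℝ => p.1 + √v * p.2) ((nu q).prod gam) (nu (q + v)) := by
  refine ⟨by fun_prop, ?_⟩
  have h1 : ((nu q).prod gam).map (Prod.map id fun z => √v * z) = (nu q).prod (nu v) := by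
    rw [← Measure.map_prod_map _ _ measurable_id (by fun_prop), Measure.map_id, nu, nu]
  have h2 : nu q ∗ nu v = nu (q + v) := by
    rw [nu_eq hq, nu_eq hv, nu_eq (add_nonneg hq hv), gaussianReal_conv_gaussianReal, add_zero,
      Real.toNNReal_add hq hv]
  rw [← h2, Measure.conv, ← h1, Measure.map_map (by fun_prop) (by fun_prop)]
  rfl

/-- Gaussian average -/
noncomputable def av (v : ℝ) (G : ℝ → ℝ) (x : ℝ) : ℝ := ∫ z, G (x + √v * z) ∂gam

section Av

variable {q v : ℝ} (hq : 0 ≤ q) (hv : 0 ≤ v) {G : ℝ → ℝ}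
include hq hv

theorem ae_int (hG : Integrable G (nu (q + v))) :
    ∀ᵐ x ∂nu q, Integrable (fun z => G (x + √v * z)) gam :=
  ((conv hq hv).integrable_comp_of_integrable hG).prod_right_ae

theorem int_av (hG : Integrable G (nu (q + v))) : Integrable (av v G) (nu q) :=
  ((conv hq hv).integrable_comp_of_integrable hG).integral_prod_left

theorem integral_av (hG : Integrable G (nu (q + v))) :
    ∫ x, av v G x ∂nu q = ∫ x, G x ∂nu (q + v) := by
  have h := (conv hq hv).integrable_comp_of_integrable hG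
  rw [← (conv hq hv).map_eq] at hG ⊢
  rw [integral_map (conv hq hv).measurable.aemeasurable hG.aestronglyMeasurable]
  exact (integral_prod _ h).symm

theorem ae_ae {P : ℝ → Prop} (h : ∀ᵐ y ∂nu (q + v), P y) :
    ∀ᵐ x ∂nu q, ∀ᵐ z ∂gam, P (x + √v * z) :=
  Measure.ae_ae_of_ae_prod ((conv hq hv).quasiMeasurePreserving.ae h)

end Av

theorem exp_le {r : ℝ} (h0 : 0 ≤ r) (h1 : r ≤ 1) (s : ℝ) :
    Real.exp (r * s) ≤ 1 - r + r * Real.exp s := by
  have := convexOn_exp.2 (Set.mem_univ 0) (Set.mem_univ s) (sub_nonneg.2 h1) h0 (by ring)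
  simpa using this

section Prob

variable {X : Type*} [MeasurableSpace X] {μ : Measure X} [IsProbabilityMeasure μ] {G : X → ℝ}

theorem jensen (hG : Integrable G μ) (he : Integrable (fun x => Real.exp (G x)) μ) :
    ∫ x, G x ∂μ ≤ Real.log (∫ x, Real.exp (G x) ∂μ) := by
  rw [Real.le_log_iff_exp_le (integral_exp_pos he)]
  set a := ∫ x, G x ∂μ with ha
  have h1 : ∫ x, Real.exp a * (G x - a + 1) ∂μ ≤ ∫ x, Real.exp (G x) ∂μ :=
    integral_mono (((hG.sub (integrable_const a)).add (integrable_const 1)).const_mul _) he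
      fun x => by
        have := mul_le_mul_of_nonneg_left (Real.add_one_le_exp (G x - a)) (Real.exp_pos a).le
        rwa [← Real.exp_add, add_sub_cancel] at this
  rw [integral_const_mul, integral_add (f := fun x => G x - a) (hG.sub (integrable_const a))
    (integrable_const 1), integral_sub hG (integrable_const a)] at h1
  simpa [← ha] using h1

theorem int_exp_mul (hm : AEStronglyMeasurable G μ) (he : Integrable (fun x => Real.exp (G x)) μ)
    {m : ℝ} (h0 : 0 ≤ m) (h1 : m ≤ 1) : Integrable (fun x => Real.exp (m * G x)) μ :=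
  ((integrable_const (1 - m)).add (he.const_mul m)).mono'
    (Real.continuous_exp.comp_aestronglyMeasurable (hm.const_mul m)) (ae_of_all _ fun x => by
      rw [Real.norm_eq_abs, abs_of_pos (Real.exp_pos _)]
      exact exp_le h0 h1 _)

theorem lyap (hm : AEStronglyMeasurable G μ) (he : Integrable (fun x => Real.exp (G x)) μ)
    {m : ℝ} (h0 : 0 < m) (h1 : m ≤ 1) :
    Real.exp (1 / m * Real.log (∫ x, Real.exp (m * G x) ∂μ)) ≤ ∫ x, Real.exp (G x) ∂μ := by
  have hp := integral_exp_pos he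
  set a := ∫ x, Real.exp (G x) ∂μ with ha
  have hi := int_exp_mul hm he h0.le h1
  have h2 : ∫ x, Real.exp (m * G x) ∂μ ≤
      ∫ x, Real.exp (m * Real.log a) * (1 - m + m / a * Real.exp (G x)) ∂μ :=
    integral_mono hi (((integrable_const _).add (he.const_mul _)).const_mul _) fun x => by
      have := mul_le_mul_of_nonneg_left (exp_le h0.le h1 (G x - Real.log a))
        (Real.exp_pos (m * Real.log a)).le
      rw [← Real.exp_add, Real.exp_sub, Real.exp_log hp] at this
      convert this using 2 <;> ring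
  rw [integral_const_mul, integral_add (integrable_const _) (he.const_mul _), integral_const_mul,
    ← ha, div_mul_cancel₀ _ hp.ne'] at h2
  simp only [integral_const, probReal_univ, smul_eq_mul, one_mul, sub_add_cancel, mul_one] at h2
  have h3 := Real.log_le_log (integral_exp_pos hi) h2
  rw [Real.log_exp] at h3
  rw [← Real.le_log_iff_exp_le hp, one_div, inv_mul_le_iff₀ h0]
  exact h3

end Prob

/-- the function and its exponential are integrable -/
structure Cls (μ : Measure ℝ) (F : ℝ → ℝ) : Prop where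
  meas : Measurable F
  int : Integrable F μ
  iexp : Integrable (fun x => Real.exp (F x)) μ

theorem meas_gstep {F : ℝ → ℝ} (hF : Measurable F) (m v : ℝ) : Measurable (gstep m v F) := by
  have h0 : Measurable fun p : ℝ × ℝ => Real.exp (m * F (p.1 + √v * p.2)) := by fun_prop
  exact ((h0.stronglyMeasurable.integral_prod_right' (ν := gam)).measurable.log).const_mul _

section Step

variable {q v m : ℝ} (hq : 0 ≤ q) (hv : 0 ≤ v) (h0 : 0 < m) (h1 : m ≤ 1) {F F' : ℝ → ℝ}
include hq hv h0 h1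

theorem Cls.ae_exp (h : Cls (nu (q + v)) F) :
    ∀ᵐ x ∂nu q, Integrable (fun z => Real.exp (m * F (x + √v * z))) gam :=
  ae_int hq hv (int_exp_mul h.meas.aestronglyMeasurable h.iexp h0.le h1)

theorem Cls.bounds (h : Cls (nu (q + v)) F) : ∀ᵐ x ∂nu q, av v F x ≤ gstep m v F x ∧
    Real.exp (gstep m v F x) ≤ av v (fun y => Real.exp (F y)) x := by
  filter_upwards [ae_int hq hv h.int, ae_int hq hv h.iexp, h.ae_exp hq hv h0 h1] with x a1 a2 a3
  refine ⟨?_, lyap a1.aestronglyMeasurable a2 h0 h1⟩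
  have := jensen (a1.const_mul m) a3
  rw [integral_const_mul] at this
  rw [gstep, one_div, le_inv_mul_iff₀ h0]
  exact this

theorem Cls.step (h : Cls (nu (q + v)) F) : Cls (nu q) (gstep m v F) := by
  have hm := meas_gstep h.meas m v
  refine ⟨hm, ((int_av hq hv h.int).abs.add (int_av hq hv h.iexp)).mono' hm.aestronglyMeasurable ?_,
    (int_av hq hv h.iexp).mono' hm.exp.aestronglyMeasurable ?_⟩
  · filter_upwards [h.bounds hq hv h0 h1] with x hx
    have a1 := Real.add_one_le_exp (gstep m v F x)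
    have a2 := Real.exp_pos (gstep m v F x)
    rw [Real.norm_eq_abs, abs_le, Pi.add_apply]
    constructor <;> linarith [hx.1, hx.2, neg_abs_le (av v F x), abs_nonneg (av v F x)]
  · filter_upwards [h.bounds hq hv h0 h1] with x hx
    rw [Real.norm_eq_abs, abs_of_pos (Real.exp_pos _)]
    exact hx.2

theorem Cls.mono (h : Cls (nu (q + v)) F) (h' : Cls (nu (q + v)) F')
    (hle : ∀ᵐ y ∂nu (q + v), F y ≤ F' y) : ∀ᵐ x ∂nu q, gstep m v F x ≤ gstep m v F' x := by
  filter_upwards [h.ae_exp hq hv h0 h1, h'.ae_exp hq hv h0 h1, ae_ae hq hv hle] with x a1 a2 a3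
  refine mul_le_mul_of_nonneg_left (Real.log_le_log (integral_exp_pos a1)
    (integral_mono_ae a1 a2 ?_)) (by positivity)
  filter_upwards [a3] with z hz
  exact Real.exp_le_exp.2 (mul_le_mul_of_nonneg_left hz h0.le)

/-- the comparison with a function which is bounded below -/
theorem Cls.comp {R m' : ℝ} {W : ℝ → ℝ} (hm : m ≤ m') (h : Cls (nu (q + v)) F)
    (h' : Cls (nu (q + v)) F') (hW : Integrable W (nu (q + v)))
    (hle : ∀ᵐ y ∂nu (q + v), -R ≤ F' y ∧ 0 ≤ W y ∧
      Real.exp (m' * F y) ≤ Real.exp (m' * F' y) + m' * Real.exp (R * (1 - m')) * W y) :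
    ∀ᵐ x ∂nu q, -R ≤ gstep m v F' x ∧ 0 ≤ av v W x ∧ Real.exp (m * gstep m v F x) ≤
      Real.exp (m * gstep m v F' x) + m * Real.exp (R * (1 - m)) * av v W x := by
  filter_upwards [h.ae_exp hq hv h0 h1, h'.ae_exp hq hv h0 h1, ae_ae hq hv hle, ae_int hq hv hW,
    h'.bounds hq hv h0 h1, ae_int hq hv h'.int] with x a1 a2 a3 a4 a5 a6
  have e : ∀ G : ℝ → ℝ, Integrable (fun z => Real.exp (m * G (x + √v * z))) gam →
      Real.exp (m * gstep m v G x) = ∫ z, Real.exp (m * G (x + √v * z)) ∂gam := fun G hG => by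
    rw [gstep, ← mul_assoc, mul_one_div_cancel h0.ne', one_mul, Real.exp_log (integral_exp_pos hG)]
  refine ⟨le_trans ?_ a5.1, integral_nonneg_of_ae (a3.mono fun z hz => hz.2.1), ?_⟩
  · have := integral_mono_ae (integrable_const (-R)) a6 (a3.mono fun z hz => hz.1)
    simpa [av] using this
  rw [e F a1, e F' a2, av, ← integral_const_mul, ← integral_add a2 (a4.const_mul _)]
  refine integral_mono_ae a1 (a2.add (a4.const_mul _)) (a3.mono fun z hz => ?_)
  obtain ⟨b1, b2, b3⟩ := hz
  beta_reduce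
  generalize F (x + √v * z) = s at b3 ⊢
  generalize F' (x + √v * z) = t at b1 b3 ⊢
  generalize W (x + √v * z) = w at b2 b3 ⊢
  have hm' : 0 < m' := h0.trans_le hm
  have c1 := mul_le_mul_of_nonneg_left (exp_le (div_pos h0 hm').le ((div_le_one hm').2 hm)
    (m' * (s - t))) (Real.exp_pos (m * t)).le
  rw [← Real.exp_add, show m * t + m / m' * (m' * (s - t)) = m * s by field_simp; ring] at c1
  have c2 : Real.exp (m' * (s - t)) ≤ 1 + m' * Real.exp (R * (1 - m') - m' * t) * w := by
    rw [mul_sub, Real.exp_sub, Real.exp_sub, div_le_iff₀ (Real.exp_pos _)]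
    refine b3.trans (le_of_eq ?_)
    have := (Real.exp_pos (m' * t)).ne'
    field_simp
  have c3 : Real.exp (m * t) * Real.exp (R * (1 - m') - m' * t) ≤ Real.exp (R * (1 - m)) := by
    rw [← Real.exp_add]
    exact Real.exp_le_exp.2 (by nlinarith)
  have c4 := mul_le_mul_of_nonneg_left c2 (mul_pos (Real.exp_pos (m * t)) (div_pos h0 hm')).le
  have c5 := mul_le_mul_of_nonneg_left c3 (mul_nonneg h0.le b2)
  have c6 : Real.exp (m * t) * (m / m') * (1 + m' * Real.exp (R * (1 - m') - m' * t) * w) =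
      Real.exp (m * t) * (m / m') +
        m * w * (Real.exp (m * t) * Real.exp (R * (1 - m') - m' * t)) := by
    field_simp
  nlinarith

end Step

theorem gstep_tendsto {m v B : ℝ} (h0 : 0 < m) {F : ℕ → ℝ → ℝ} {G : ℝ → ℝ}
    (hF : ∀ n, Measurable (F n)) (hG : Measurable G) (hB : ∀ n x, F n x ≤ B)
    (h : ∀ x, Tendsto (fun n => F n x) atTop (𝓝 (G x))) :
    (∀ n x, gstep m v (F n) x ≤ B) ∧
      ∀ x, Tendsto (fun n => gstep m v (F n) x) atTop (𝓝 (gstep m v G x)) := by
  have hb : ∀ {H : ℝ → ℝ}, (∀ x, H x ≤ B) → ∀ y, ‖Real.exp (m * H y)‖ ≤ Real.exp (m * B) :=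
    fun hH y => by
      rw [Real.norm_eq_abs, abs_of_pos (Real.exp_pos _)]
      exact Real.exp_le_exp.2 (mul_le_mul_of_nonneg_left (hH y) h0.le)
  have hi : ∀ {H : ℝ → ℝ}, Measurable H → (∀ x, H x ≤ B) → ∀ x,
      Integrable (fun z => Real.exp (m * H (x + √v * z))) gam := fun hH hB x =>
    Integrable.of_bound (Measurable.aestronglyMeasurable (by fun_prop)) _
      (ae_of_all _ fun z => hb hB _)
  have hGB : ∀ x, G x ≤ B := fun x => le_of_tendsto' (h x) fun n => hB n x
  refine ⟨fun n x => ?_, fun x => ?_⟩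
  · have a1 := integral_mono (hi (hF n) (hB n) x) (integrable_const (Real.exp (m * B))) fun z =>
      Real.exp_le_exp.2 (mul_le_mul_of_nonneg_left (hB n _) h0.le)
    simp only [integral_const, probReal_univ, smul_eq_mul, one_mul] at a1
    have a2 := Real.log_le_log (integral_exp_pos (hi (hF n) (hB n) x)) a1
    rw [Real.log_exp] at a2
    rw [gstep, one_div, inv_mul_le_iff₀ h0]
    exact a2
  · refine (Tendsto.log ?_ (integral_exp_pos (hi hG hGB x)).ne').const_mul _
    exact tendsto_integral_of_dominated_convergence (fun _ => Real.exp (m * B))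
      (fun n => (hi (hF n) (hB n) x).aestronglyMeasurable) (integrable_const _)
      (fun n => ae_of_all _ fun z => hb (hB n) _)
      (ae_of_all _ fun z => ((h _).const_mul m).rexp)

/-- admissible parameters of the first `l` steps -/
def Adm (l : ℕ) (m q : ℕ → ℝ) : Prop :=
  0 ≤ q 0 ∧ ∀ j < l, q j ≤ q (j + 1) ∧ 0 < m (j + 1) ∧ m (j + 1) ≤ 1 ∧ m (j + 1) ≤ m (j + 2)

section Casc

variable {m q : ℕ → ℝ}

theorem Adm.of_succ {l : ℕ} (h : Adm (l + 1) m q) : Adm l m q :=
  ⟨h.1, fun j hj => h.2 j (by omega)⟩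

theorem Adm.nonneg : ∀ {l : ℕ}, Adm l m q → 0 ≤ q l
  | 0, h => h.1
  | l + 1, h => h.of_succ.nonneg.trans (h.2 l (by omega)).1

theorem Adm.step {l : ℕ} (h : Adm (l + 1) m q) {F : ℝ → ℝ} (hF : Cls (nu (q (l + 1))) F) :
    Cls (nu (q l)) (gstep (m (l + 1)) (q (l + 1) - q l) F) := by
  obtain ⟨a1, a2, a3, -⟩ := h.2 l (by omega)
  exact Cls.step h.of_succ.nonneg (sub_nonneg.2 a1) a2 a3 (by rwa [add_sub_cancel])

theorem casc_cls : ∀ {l : ℕ}, Adm l m q → ∀ {F : ℝ → ℝ}, Cls (nu (q l)) F →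
    Cls (nu (q 0)) (cascade m q l F)
  | 0, _, _, hF => hF
  | _ + 1, h, _, hF => casc_cls h.of_succ (h.step hF)

theorem casc_mono : ∀ {l : ℕ}, Adm l m q → ∀ {F F' : ℝ → ℝ}, Cls (nu (q l)) F →
    Cls (nu (q l)) F' → (∀ᵐ y ∂nu (q l), F y ≤ F' y) →
      ∀ᵐ x ∂nu (q 0), cascade m q l F x ≤ cascade m q l F' x
  | 0, _, _, _, _, _, hle => hle
  | l + 1, h, _, _, hF, hF', hle => by
    obtain ⟨a1, a2, a3, -⟩ := h.2 l (by omega)
    exact casc_mono h.of_succ (h.step hF) (h.step hF') (Cls.mono h.of_succ.nonneg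
      (sub_nonneg.2 a1) a2 a3 (by rwa [add_sub_cancel]) (by rwa [add_sub_cancel])
      (by rwa [add_sub_cancel]))

theorem casc_comp {R : ℝ} : ∀ {l : ℕ}, Adm l m q → 0 < m (l + 1) → ∀ {F F' W : ℝ → ℝ},
    Cls (nu (q l)) F → Cls (nu (q l)) F' → Integrable W (nu (q l)) →
    (∀ᵐ y ∂nu (q l), -R ≤ F' y ∧ 0 ≤ W y ∧ Real.exp (m (l + 1) * F y) ≤
      Real.exp (m (l + 1) * F' y) + m (l + 1) * Real.exp (R * (1 - m (l + 1))) * W y) →
    ∫ x, cascade m q l F x ∂nu (q 0) ≤
      ∫ x, cascade m q l F' x ∂nu (q 0) + Real.exp R * ∫ x, W x ∂nu (q l)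
  | 0, _, h0, F, F', W, hF, hF', hW, hle => by
    rw [← integral_const_mul, ← integral_add (casc_cls ‹_› hF').int (hW.const_mul _)]
    refine integral_mono_ae hF.int (hF'.int.add (hW.const_mul _)) (hle.mono fun y hy => ?_)
    obtain ⟨b1, b2, b3⟩ := hy
    show F y ≤ F' y + Real.exp R * W y
    generalize m (0 + 1) = a at h0 b3
    have c1 : Real.exp (R * (1 - a)) ≤ Real.exp (a * F' y) * Real.exp R := by
      rw [← Real.exp_add]
      exact Real.exp_le_exp.2 (by nlinarith)
    have c2 := mul_le_mul_of_nonneg_left (Real.add_one_le_exp (a * (Real.exp R * W y)))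
      (Real.exp_pos (a * F' y)).le
    have c3 := mul_le_mul_of_nonneg_left c1 (mul_nonneg h0.le b2)
    rw [← Real.exp_add, ← mul_add] at c2
    exact le_of_mul_le_mul_left (Real.exp_le_exp.1 (by nlinarith)) h0
  | l + 1, h, _, F, F', W, hF, hF', hW, hle => by
    obtain ⟨a1, a2, a3, a4⟩ := h.2 l (by omega)
    have hq := h.of_succ.nonneg
    have hv := sub_nonneg.2 a1
    have e : q l + (q (l + 1) - q l) = q (l + 1) := add_sub_cancel _ _
    have := casc_comp h.of_succ a2 (h.step hF) (h.step hF') (int_av hq hv (by rwa [e]))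
      (Cls.comp hq hv a2 a3 a4 (by rwa [e]) (by rwa [e]) (by rwa [e]) (by rwa [e]))
    rwa [integral_av hq hv (by rwa [e]), e] at this

theorem casc_tendsto {B : ℝ} : ∀ {l : ℕ}, Adm l m q → ∀ {F : ℕ → ℝ → ℝ} {G : ℝ → ℝ},
    (∀ n, Measurable (F n)) → Measurable G → (∀ n x, F n x ≤ B) →
    (∀ x, Tendsto (fun n => F n x) atTop (𝓝 (G x))) → (∀ n x, cascade m q l (F n) x ≤ B) ∧
      ∀ x, Tendsto (fun n => cascade m q l (F n) x) atTop (𝓝 (cascade m q l G x))
  | 0, _, _, _, _, _, hB, h => ⟨hB, h⟩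
  | l + 1, h, _, _, hF, hG, hB, ht => by
    have := gstep_tendsto (v := q (l + 1) - q l) (h.2 l (by omega)).2.1 hF hG hB ht
    exact casc_tendsto h.of_succ (fun n => meas_gstep (hF n) _ _) (meas_gstep hG _ _) this.1 this.2

end Casc

section Psi

variable {k : ℕ} {m q : ℕ → ℝ} (hm : Exponents k m) (hq : Path k q) (h1 : q k < 1)
  {f f' : ℝ → ℝ}
include hm hq h1

omit h1 in
theorem adm : Adm k m q := by
  have a1 : ∀ j ≤ k, 0 < m (j + 1) := fun j hj => by
    induction j with
    | zero => exact hm.1 ▸ hm.2.2 0 hj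
    | succ j ih => exact (ih (by omega)).trans (hm.2.2 _ hj)
  have a2 : ∀ j i, i + j = k + 1 → m i ≤ 1 := fun j => by
    induction j with
    | zero => exact fun i hi => by rw [show i = k + 1 by omega, hm.2.1]
    | succ j ih => exact fun i hi => (hm.2.2 i (by omega)).le.trans (ih (i + 1) (by omega))
  exact ⟨hq.1, fun j hj => ⟨hq.2 j hj, a1 j hj.le, a2 (k - j) _ (by omega),
    (hm.2.2 _ (by omega)).le⟩⟩

theorem top_cls (hf : Cls gam f) : Cls (nu (q k)) (gstep 1 (1 - q k) f) :=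
  Cls.step (adm hm hq).nonneg (by linarith) one_pos le_rfl (by rwa [add_sub_cancel, nu_one])

theorem psi_eq (hf : Cls gam f) :
    patternPart f k m q = ∫ x, cascade m q k (gstep 1 (1 - q k) f) x ∂nu (q 0) := by
  have h := (casc_cls (adm hm hq) (top_cls hm hq h1 hf)).meas
  rw [nu, integral_map (by fun_prop) h.aestronglyMeasurable, patternPart]
  have e : gstep 1 (1 - q k) f = fun x =>
      Real.log (∫ y, Real.exp (f (x + √(1 - q k) * y)) ∂gam) := by
    ext x
    simp [gstep]
  rw [e]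

theorem psi_mono (hf : Cls gam f) (hf' : Cls gam f') (hle : ∀ x, f x ≤ f' x) :
    patternPart f k m q ≤ patternPart f' k m q := by
  have a1 := top_cls hm hq h1 hf
  have a2 := top_cls hm hq h1 hf'
  have e : nu (q k + (1 - q k)) = gam := by rw [add_sub_cancel, nu_one]
  rw [psi_eq hm hq h1 hf, psi_eq hm hq h1 hf']
  exact integral_mono_ae (casc_cls (adm hm hq) a1).int (casc_cls (adm hm hq) a2).int
    (casc_mono (adm hm hq) a1 a2 (Cls.mono (adm hm hq).nonneg (by linarith) one_pos le_rfl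
      (e ▸ hf) (e ▸ hf') (ae_of_all _ hle)))

theorem psi_comp {R : ℝ} {w : ℝ → ℝ} (hf : Cls gam f) (hf' : Cls gam f') (hw : Integrable w gam)
    (hle : ∀ x, -R ≤ f' x ∧ 0 ≤ w x ∧ Real.exp (f x) ≤ Real.exp (f' x) + w x) :
    patternPart f k m q ≤ patternPart f' k m q + Real.exp R * ∫ x, w x ∂gam := by
  have e : nu (q k + (1 - q k)) = gam := by rw [add_sub_cancel, nu_one]
  have a0 := (adm hm hq).nonneg
  have a1 : 0 ≤ 1 - q k := by linarith
  have := casc_comp (R := R) (adm hm hq) (by rw [hm.2.1]; exact one_pos) (top_cls hm hq h1 hf)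
    (top_cls hm hq h1 hf') (int_av a0 a1 (e ▸ hw)) (by
      rw [hm.2.1]
      exact Cls.comp a0 a1 one_pos le_rfl le_rfl (e ▸ hf) (e ▸ hf') (e ▸ hw)
        (ae_of_all _ fun y => by simpa using hle y))
  rwa [integral_av a0 a1 (e ▸ hw), e, ← psi_eq hm hq h1 hf, ← psi_eq hm hq h1 hf'] at this

theorem psi_tendsto {B : ℝ} {F : ℕ → ℝ → ℝ} (hf : Cls gam f) (hF : ∀ n, Cls gam (F n))
    (hB : ∀ n x, f x ≤ F n x ∧ F n x ≤ B) (ht : ∀ x, Tendsto (fun n => F n x) atTop (𝓝 (f x))) :
    Tendsto (fun n => patternPart (F n) k m q) atTop (𝓝 (patternPart f k m q)) := by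
  have e : nu (q k + (1 - q k)) = gam := by rw [add_sub_cancel, nu_one]
  have a1 := gstep_tendsto (v := 1 - q k) one_pos (fun n => (hF n).meas) hf.meas
    (fun n x => (hB n x).2) ht
  have a2 := casc_tendsto (adm hm hq) (fun n => meas_gstep (hF n).meas _ _)
    (meas_gstep hf.meas _ _) a1.1 a1.2
  have a3 := casc_cls (adm hm hq) (top_cls hm hq h1 hf)
  simp only [psi_eq hm hq h1 hf, fun n => psi_eq hm hq h1 (hF n)]
  refine tendsto_integral_of_dominated_convergence
    (fun x => |cascade m q k (gstep 1 (1 - q k) f) x| + |B|)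
    (fun n => (casc_cls (adm hm hq) (top_cls hm hq h1 (hF n))).meas.aestronglyMeasurable)
    (a3.int.abs.add (integrable_const _)) (fun n => ?_) (ae_of_all _ a2.2)
  filter_upwards [casc_mono (adm hm hq) (top_cls hm hq h1 hf) (top_cls hm hq h1 (hF n))
    (Cls.mono (adm hm hq).nonneg (by linarith) one_pos le_rfl (e ▸ hf) (e ▸ hF n)
      (ae_of_all _ fun x => (hB n x).1))] with x hx
  have := a2.1 n x
  rw [Real.norm_eq_abs, abs_le]
  constructor <;> linarith [neg_abs_le (cascade m q k (gstep 1 (1 - q k) f) x), le_abs_self B,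
    abs_nonneg (cascade m q k (gstep 1 (1 - q k) f) x), abs_nonneg B]

end Psi

end Vale.Agent.N157
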