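import Vale.Agent.P157W88.Defs

/-! Convergence of the pressure in mean; the ground state energy on the sphere. -/

namespace Vale.Agent.N157

open MeasureTheory Vale.Agent.P157W88
open scoped InnerProductSpace

/-- For `M = ⌊α N⌋` patterns on arbitrary probability spaces, `E |p_N(f) - L|` tends to zero. -/
def LimitL1 (μ : (N : ℕ) → Measure (E N)) (α : ℝ) (f : ℝ → ℝ) (L : ℝ) : Prop :=
  ∀ (Ω : ℕ → Type) [∀ N, MeasurableSpace (Ω N)] (P : (N : ℕ) → Measure (Ω N))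
    (g : (N : ℕ) → Fin ⌊α * N⌋₊ → Ω N → E N), (∀ N, IsPatterns (P N) (g N)) →
    Filter.Tendsto (fun N => ∫ ω, |press (μ N) f (fun a => g N a ω) - L| ∂(P N)) Filter.atTop
      (nhds 0)

/-- The supremum of `(1/N) ∑ₐ f(gᵃ·x/√N)` over the points `x` of the sphere `‖x‖ ^ 2 = N`. -/
noncomputable def supVal {M N : ℕ} (f : ℝ → ℝ) (g : Fin M → E N) : ℝ :=
  ⨆ x : {x : E N // ‖x‖ ^ 2 = N}, 1 / N * ∑ a, f (⟪g a, x.1⟫_ℝ / √(N : ℝ))

/-- For `M = ⌊α N⌋` patterns on arbitrary probability spaces, the supremum is integrable and tends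
to `e` in mean. -/
def SupLimit (α : ℝ) (f : ℝ → ℝ) (e : ℝ) : Prop :=
  ∀ (Ω : ℕ → Type) [∀ N, MeasurableSpace (Ω N)] (P : (N : ℕ) → Measure (Ω N))
    (g : (N : ℕ) → Fin ⌊α * N⌋₊ → Ω N → E N), (∀ N, IsPatterns (P N) (g N)) →
    (∀ N, Integrable (fun ω => supVal f fun a => g N a ω) (P N)) ∧
    Filter.Tendsto (fun N => ∫ ω, |supVal f (fun a => g N a ω) - e| ∂(P N)) Filter.atTop (nhds 0)

end Vale.Agent.N157
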