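import Vale.Agent.N157.Casc
import Vale.Agent.P157.McDiarmid

/-! Finite systems: the logarithm of the partition function depends continuously on the potential,
uniformly in the reference measure. -/

namespace Vale.Agent.N157

open MeasureTheory ProbabilityTheory Filter Topology

variable {X G Ω : Type*} [MeasurableSpace X] [MeasurableSpace G] [MeasurableSpace Ω]
  {μ : Measure X} [IsProbabilityMeasure μ] {σ : Measure G} [IsProbabilityMeasure σ]
  {P : Measure Ω} [IsProbabilityMeasure P]

theorem map_prod {Z : Type*} [MeasurableSpace Z] {ν : Measure Z} {T : Ω × X → Z}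
    (hT : Measurable T) (h : ∀ᵐ x ∂μ, P.map (fun ω => T (ω, x)) = ν) :
    MeasurePreserving T (P.prod μ) ν := by
  refine ⟨hT, Measure.ext fun s hs => ?_⟩
  rw [Measure.map_apply hT hs, Measure.prod_apply_symm (hT hs),
    lintegral_congr_ae (g := fun _ => ν s) ?_]
  · simp
  · filter_upwards [h] with x hx
    rw [← hx, Measure.map_apply (by fun_prop) hs]
    rfl

theorem mp_integral {Z : Type*} [MeasurableSpace Z] {ν : Measure Z} {T : Ω × X → Z}
    (hT : MeasurePreserving T (P.prod μ) ν) {w : Z → ℝ} (hw : Integrable w ν) :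
    ∫ ω, ∫ x, w (T (ω, x)) ∂μ ∂P = ∫ z, w z ∂ν := by
  have h := hT.integrable_comp_of_integrable hw
  rw [← hT.map_eq] at hw ⊢
  rw [integral_map hT.measurable.aemeasurable hw.aestronglyMeasurable]
  exact (integral_prod _ h).symm

theorem meas_log {S : Ω × X → ℝ} (hS : Measurable S) :
    Measurable fun ω => Real.log (∫ x, Real.exp (S (ω, x)) ∂μ) :=
  (hS.exp.stronglyMeasurable.integral_prod_right' (ν := μ)).measurable.log

theorem int_log {S : Ω × X → ℝ} (hS : Measurable S) (h1 : Integrable S (P.prod μ))
    (h2 : Integrable (fun p => Real.exp (S p)) (P.prod μ)) :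
    Integrable (fun ω => Real.log (∫ x, Real.exp (S (ω, x)) ∂μ)) P := by
  refine (h1.integral_prod_left.abs.add h2.integral_prod_left).mono'
    (meas_log hS).aestronglyMeasurable ?_
  filter_upwards [h1.prod_right_ae, h2.prod_right_ae] with ω a1 a2
  have b1 := jensen a1 a2
  have b2 := integral_exp_pos a2
  have b3 := Real.log_le_sub_one_of_pos b2
  rw [Real.norm_eq_abs, abs_le, Pi.add_apply]
  constructor <;> linarith [neg_abs_le (∫ x, S (ω, x) ∂μ), abs_nonneg (∫ x, S (ω, x) ∂μ)]

/-- the defect of two potentials -/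
noncomputable def del (f f' : ℝ → ℝ) (R : ℝ) : ℝ :=
  Real.exp R * ∫ t, max (Real.exp (f t) - Real.exp (f' t)) 0 ∂gam + ∫ t, max (-f' t - R) 0 ∂gam

variable {y : G × X → ℝ} {f f' : ℝ → ℝ}

theorem one_step (hy : Measurable y) (h : ∀ᵐ x ∂μ, σ.map (fun g => y (g, x)) = gam)
    (hf : Cls gam f) (hf' : Cls gam f') (R : ℝ) {Z : ℝ} (hZ : 0 < Z) :
    ∫ g, max (Real.log (Z * ∫ x, Real.exp (f (y (g, x))) ∂μ) -
      Real.log (Z * ∫ x, Real.exp (f' (y (g, x))) ∂μ)) 0 ∂σ ≤ del f f' R := by
  have hT := map_prod hy h
  have w1 : Integrable (fun t => max (Real.exp (f t) - Real.exp (f' t)) 0) gam :=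
    (hf.iexp.sub hf'.iexp).pos_part
  have w2 : Integrable (fun t => max (-f' t - R) 0) gam :=
    (hf'.int.neg.sub (integrable_const R)).pos_part
  have i1 := hT.integrable_comp_of_integrable w1
  have i2 := hT.integrable_comp_of_integrable w2
  simp only [Function.comp_def] at i1 i2
  rw [del, ← mp_integral hT w1, ← mp_integral hT w2, ← integral_const_mul,
    ← integral_add (i1.integral_prod_left.const_mul _) i2.integral_prod_left]
  refine integral_mono_of_nonneg (ae_of_all _ fun g => le_max_right _ _)
    ((i1.integral_prod_left.const_mul _).add i2.integral_prod_left) ?_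
  filter_upwards [i1.prod_right_ae, i2.prod_right_ae,
    (hT.integrable_comp_of_integrable hf.iexp).prod_right_ae,
    (hT.integrable_comp_of_integrable hf'.iexp).prod_right_ae,
    (hT.integrable_comp_of_integrable hf'.int).prod_right_ae] with g a1 a2 a3 a4 a5
  simp only [Function.comp_def] at a3 a4 a5
  have b1 := jensen a5 a4
  have b2 := integral_exp_pos a3
  have b3 := integral_exp_pos a4
  have b4 := integral_mono (a3.sub a4) a1 fun x => le_max_left _ _
  have b5 := integral_mono (a5.neg.sub (integrable_const R)) a2 fun x => le_max_left _ _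
  have b6 : 0 ≤ ∫ x, max (Real.exp (f (y (g, x))) - Real.exp (f' (y (g, x)))) 0 ∂μ :=
    integral_nonneg fun x => le_max_right _ _
  have b7 : 0 ≤ ∫ x, max (-f' (y (g, x)) - R) 0 ∂μ := integral_nonneg fun x => le_max_right _ _
  simp only [Pi.sub_apply, Pi.neg_apply] at b4 b5
  rw [integral_sub a3 a4] at b4
  rw [integral_sub (f := fun x => -f' (y (g, x))) a5.neg (integrable_const R), integral_neg] at b5
  simp only [integral_const, probReal_univ, smul_eq_mul, one_mul] at b5
  rw [Real.log_mul hZ.ne' b2.ne', Real.log_mul hZ.ne' b3.ne']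
  generalize ∫ x, max (Real.exp (f (y (g, x))) - Real.exp (f' (y (g, x)))) 0 ∂μ = D at *
  generalize ∫ x, max (-f' (y (g, x)) - R) 0 ∂μ = t at *
  generalize ∫ x, Real.exp (f (y (g, x))) ∂μ = A at *
  generalize ∫ x, Real.exp (f' (y (g, x))) ∂μ = A' at *
  have c0 : 0 ≤ Real.exp R * D := mul_nonneg (Real.exp_pos R).le b6
  refine max_le ?_ (by linarith)
  have c1 : 1 ≤ A' * (Real.exp t * Real.exp R) := by
    rw [← Real.exp_log b3, ← Real.exp_add, ← Real.exp_add]
    exact Real.one_le_exp (by linarith)
  have c2 := Real.add_one_le_exp (Real.exp R * D)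
  have c3 := Real.one_le_exp b7
  have c4 : A ≤ A' * (Real.exp (Real.exp R * D) * Real.exp t) := by
    have d1 := mul_le_mul_of_nonneg_left c1 b6
    have d2 := mul_le_mul_of_nonneg_left c2 (mul_pos b3 (Real.exp_pos t)).le
    have d3 := mul_le_mul_of_nonneg_left c3 b3.le
    nlinarith
  have c5 := Real.log_le_log b2 c4
  rw [Real.log_mul b3.ne' (by positivity), ← Real.exp_add, Real.log_exp] at c5
  linarith

theorem weight_step (hy : Measurable y) (h : ∀ᵐ x ∂μ, σ.map (fun g => y (g, x)) = gam)
    (hf : Cls gam f) (hf' : Cls gam f') (R : ℝ) {S : X → ℝ}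
    (hS : Integrable (fun x => Real.exp (S x)) μ) :
    ∫ g, max (Real.log (∫ x, Real.exp (S x + f (y (g, x))) ∂μ) -
      Real.log (∫ x, Real.exp (S x + f' (y (g, x))) ∂μ)) 0 ∂σ ≤ del f f' R := by
  have := isProbabilityMeasure_tilted hS
  have hZ := integral_exp_pos hS
  have := one_step (μ := μ.tilted S) hy ((tilted_absolutelyContinuous μ S).ae_le h) hf hf' R hZ
  simpa only [integral_exp_tilted, mul_div_cancel₀ _ hZ.ne', Pi.add_apply] using this

/-- the logarithm of the partition function, with one potential for every pattern -/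
noncomputable def LZ (μ : Measure X) (y : G × X → ℝ) {M : ℕ} (F : Fin M → ℝ → ℝ)
    (g : Fin M → G) : ℝ := Real.log (∫ x, Real.exp (∑ a, F a (y (g a, x))) ∂μ)

variable {M : ℕ} {F : Fin M → ℝ → ℝ}

theorem int_sum (hy : Measurable y) (h : ∀ᵐ x ∂μ, σ.map (fun g => y (g, x)) = gam)
    (hF : ∀ a, Cls gam (F a)) :
    Integrable (fun p : (Fin M → G) × X => ∑ a, F a (y (p.1 a, p.2)))
      ((Measure.pi fun _ => σ).prod μ) ∧
    Integrable (fun p : (Fin M → G) × X => Real.exp (∑ a, F a (y (p.1 a, p.2))))
      ((Measure.pi fun _ => σ).prod μ) := by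
  have hT : MeasurePreserving (fun (p : (Fin M → G) × X) (a : Fin M) => y (p.1 a, p.2))
      ((Measure.pi fun _ => σ).prod μ) (Measure.pi fun _ => gam) :=
    map_prod (by fun_prop) (h.mono fun x hx => by
      rw [Measure.pi_map_pi (f := fun _ g => y (g, x)) fun _ => by fun_prop]
      simp only [hx])
  constructor
  · exact hT.integrable_comp_of_integrable (g := fun t => ∑ a, F a (t a))
      (integrable_finsetSum (f := fun a (t : Fin M → ℝ) => F a (t a)) _ fun a _ =>
        (measurePreserving_eval (fun _ : Fin M => gam) a).integrable_comp_of_integrable (hF a).int)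
  · simp only [Real.exp_sum]
    exact hT.integrable_comp_of_integrable (g := fun t => ∏ a, Real.exp (F a (t a)))
      (Integrable.fintype_prod fun a => (hF a).iexp)

theorem meas_LZ (hy : Measurable y) (hF : ∀ a, Measurable (F a)) : Measurable (LZ μ y F) :=
  meas_log (S := fun p : (Fin M → G) × X => ∑ a, F a (y (p.1 a, p.2))) (by fun_prop)

theorem int_LZ (hy : Measurable y) (h : ∀ᵐ x ∂μ, σ.map (fun g => y (g, x)) = gam)
    (hF : ∀ a, Cls gam (F a)) : Integrable (LZ μ y F) (Measure.pi fun _ => σ) := by
  have hm := fun a => (hF a).meas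
  exact int_log (S := fun p : (Fin M → G) × X => ∑ a, F a (y (p.1 a, p.2))) (by fun_prop)
    (int_sum hy h hF).1 (int_sum hy h hF).2

theorem cls_update (hF : ∀ a, Cls gam (F a)) (hf : Cls gam f) (j a : Fin M) :
    Cls gam (Function.update F j f a) := by
  rcases eq_or_ne a j with rfl | h
  · rwa [Function.update_self]
  · rw [Function.update_of_ne h]; exact hF a

theorem update_step (hy : Measurable y) (h : ∀ᵐ x ∂μ, σ.map (fun g => y (g, x)) = gam)
    (hF : ∀ a, Cls gam (F a)) (hf : Cls gam f) (hf' : Cls gam f') (R : ℝ) (j : Fin M) :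
    ∫ g, max (LZ μ y (Function.update F j f) g - LZ μ y (Function.update F j f') g) 0
      ∂(Measure.pi fun _ => σ) ≤ del f f' R := by
  obtain ⟨n, rfl⟩ : ∃ n, M = n + 1 := ⟨M - 1, by have := j.pos; omega⟩
  have hT := (measurePreserving_piFinSuccAbove (fun _ : Fin (n + 1) => σ) j).symm
  have i1 := hT.integrable_comp_of_integrable
    ((int_LZ hy h (cls_update hF hf j)).sub (int_LZ hy h (cls_update hF hf' j))).pos_part
  simp only [Function.comp_def, Pi.sub_apply] at i1
  rw [← hT.integral_comp', integral_prod_symm _ i1]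
  have e : ∀ (u : ℝ → ℝ) (g : G) (ω : Fin n → G), LZ μ y (Function.update F j u)
      ((MeasurableEquiv.piFinSuccAbove (fun _ : Fin (n + 1) => G) j).symm (g, ω)) =
      Real.log (∫ x, Real.exp (∑ b, F (j.succAbove b) (y (ω b, x)) + u (y (g, x))) ∂μ) := by
    intro u g ω
    simp [LZ, Fin.sum_univ_succAbove _ j, Fin.insertNthEquiv, add_comm]
  have := integral_mono_ae i1.integral_prod_right (integrable_const (del f f' R)) (by
    filter_upwards [(int_sum hy h fun b => hF (j.succAbove b)).2.prod_right_ae] with ω hω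
    simpa only [e] using weight_step hy h hf hf' R hω)
  simpa using this

theorem all_step (hy : Measurable y) (h : ∀ᵐ x ∂μ, σ.map (fun g => y (g, x)) = gam)
    (hf : Cls gam f) (hf' : Cls gam f') (R : ℝ) (M : ℕ) :
    ∫ g, max (LZ μ y (fun _ : Fin M => f) g - LZ μ y (fun _ => f') g) 0
      ∂(Measure.pi fun _ => σ) ≤ M * del f f' R := by
  have hc : ∀ (s : Finset (Fin M)) a, Cls gam (if a ∈ s then f else f') := fun s a => by
    split_ifs; exacts [hf, hf']
  have key : ∀ s : Finset (Fin M), ∫ g, max (LZ μ y (fun a => if a ∈ s then f else f') g -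
      LZ μ y (fun _ => f') g) 0 ∂(Measure.pi fun _ => σ) ≤ s.card * del f f' R := by
    intro s
    induction s using Finset.induction_on with
    | empty => simp
    | insert j s hj ih =>
      have e1 : (fun a => if a ∈ insert j s then f else f') =
          Function.update (fun a => if a ∈ s then f else f') j f := by
        funext a
        rcases eq_or_ne a j with rfl | h <;> simp [*]
      have e2 : Function.update (fun a => if a ∈ s then f else f') j f' =
          fun a => if a ∈ s then f else f' := by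
        funext a
        rcases eq_or_ne a j with rfl | h <;> simp [*]
      have a1 := update_step hy h (hc s) hf hf' R j
      rw [e2, ← e1] at a1
      have i1 := ((int_LZ hy h (hc (insert j s))).sub (int_LZ hy h (hc s))).pos_part
      have i2 := ((int_LZ hy h (hc s)).sub (int_LZ (F := fun _ => f') hy h fun _ => hf')).pos_part
      have a2 := integral_mono_of_nonneg (μ := Measure.pi fun _ : Fin M => σ)
        (f := fun g => max (LZ μ y (fun a => if a ∈ insert j s then f else f') g -
          LZ μ y (fun _ => f') g) 0) (ae_of_all _ fun g => le_max_right _ _) (i1.add i2)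
        (ae_of_all _ fun g => by
          simp only [Pi.add_apply, Pi.sub_apply]
          exact max_le ((sub_add_sub_cancel _ _ _).ge.trans
            (add_le_add (le_max_left _ _) (le_max_left _ _)))
            (add_nonneg (le_max_right _ _) (le_max_right _ _)))
      rw [integral_add' i1 i2] at a2
      simp only [Pi.sub_apply] at a2
      rw [Finset.card_insert_of_notMem hj]
      push_cast
      linarith
  simpa using key Finset.univ

theorem abs_step (hy : Measurable y) (h : ∀ᵐ x ∂μ, σ.map (fun g => y (g, x)) = gam)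
    (hf : Cls gam f) (hf' : Cls gam f') (R : ℝ) (M : ℕ) :
    ∫ g, |LZ μ y (fun _ : Fin M => f) g - LZ μ y (fun _ => f') g| ∂(Measure.pi fun _ => σ) ≤
      M * (del f f' R + del f' f R) := by
  have i1 := int_LZ (F := fun _ : Fin M => f) hy h fun _ => hf
  have i2 := int_LZ (F := fun _ : Fin M => f') hy h fun _ => hf'
  have a1 := add_le_add (all_step hy h hf hf' R M) (all_step hy h hf' hf R M)
  have i3 := (i1.sub i2).pos_part
  have i4 := (i2.sub i1).pos_part
  simp only [Pi.sub_apply] at i3 i4
  rw [← integral_add i3 i4] at a1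
  refine le_trans (le_of_eq (integral_congr_ae (ae_of_all _ fun g => ?_))) (a1.trans_eq (by ring))
  beta_reduce
  rcases le_total (LZ μ y (fun _ : Fin M => f) g) (LZ μ y (fun _ => f') g) with a | a
  · rw [abs_of_nonpos (by linarith), max_eq_right (by linarith), max_eq_left (by linarith)]; ring
  · rw [abs_of_nonneg (by linarith), max_eq_left (by linarith), max_eq_right (by linarith)]; ring

theorem log_le {H H' : X → ℝ} (h1 : Integrable (fun x => Real.exp (H x)) μ)
    (h2 : Integrable (fun x => Real.exp (H' x)) μ) {C : ℝ} (h : ∀ x, H x ≤ H' x + C) :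
    Real.log (∫ x, Real.exp (H x) ∂μ) ≤ Real.log (∫ x, Real.exp (H' x) ∂μ) + C := by
  have a1 := integral_mono h1 (h2.mul_const (Real.exp C)) fun x => by
    rw [← Real.exp_add]
    exact Real.exp_le_exp.2 (h x)
  have a2 := Real.log_le_log (integral_exp_pos h1) a1
  rwa [integral_mul_const, Real.log_mul (integral_exp_pos h2).ne' (Real.exp_pos C).ne',
    Real.log_exp] at a2

theorem conc_gen {F : (Fin M → G) → ℝ} (hm : Measurable F) {A c : ℝ} (b3 : ∀ g, |F g| ≤ A)
    (hc : 0 ≤ c) (b4 : ∀ g a e, |F (Function.update g a e) - F g| ≤ c) {s : ℝ} (hs : 0 < s) :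
    s * ∫ g, |F g - ∫ g, F g ∂(Measure.pi fun _ => σ)| ∂(Measure.pi fun _ => σ) ≤
      2 * Real.exp (M * c ^ 2 * s ^ 2 / 2) := by
  have a1 := Vale.Agent.P157.mgf_bounded_differences σ M _ hm b3 hc b4
  set d := ∫ g, F g ∂(Measure.pi fun _ => σ)
  have i1 : ∀ t : ℝ, Integrable (fun g => Real.exp (t * (F g - d))) (Measure.pi fun _ => σ) :=
    fun t => Integrable.of_bound (Measurable.aestronglyMeasurable (by fun_prop))
      (Real.exp (|t| * (A + |d|))) (ae_of_all _ fun g => by
        rw [Real.norm_eq_abs, abs_of_pos (Real.exp_pos _)]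
        refine Real.exp_le_exp.2 ((le_abs_self _).trans ?_)
        rw [abs_mul]
        exact mul_le_mul_of_nonneg_left ((abs_sub _ _).trans (by linarith [b3 g])) (abs_nonneg _))
  have a2 := integral_mono_of_nonneg (μ := Measure.pi fun _ : Fin M => σ)
    (f := fun g => s * |F g - d|)
    (ae_of_all _ fun g => by positivity) ((i1 s).add (i1 (-s))) (ae_of_all _ fun g => by
      simp only [Pi.add_apply]
      generalize F g - d = t
      have := Real.add_one_le_exp (s * t)
      have := Real.add_one_le_exp (-s * t)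
      have := Real.exp_pos (s * t)
      have := Real.exp_pos (-s * t)
      rcases abs_cases t with h | h <;> rw [h.1] <;> linarith)
  rw [integral_add' (i1 s) (i1 (-s)), integral_const_mul] at a2
  have a3 := a1 s
  have a4 := a1 (-s)
  rw [neg_sq] at a4
  linarith

theorem abs_sum_le {B : ℝ} (hB : ∀ t, |f t| ≤ B) (t : Fin M → ℝ) : |∑ a, f (t a)| ≤ M * B :=
  (Finset.abs_sum_le_sum_abs _ _).trans ((Finset.sum_le_sum fun a _ => hB _).trans (by simp))

omit [MeasurableSpace X] [MeasurableSpace G] in
theorem abs_update_le {B : ℝ} (hB : ∀ t, |f t| ≤ B) (g : Fin M → G) (a : Fin M) (e : G) (x : X) :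
    |∑ b, f (y (Function.update g a e b, x)) - ∑ b, f (y (g b, x))| ≤ 2 * B := by
  rw [← Finset.sum_sub_distrib, Finset.sum_eq_single a
    (fun b _ hb => by rw [Function.update_of_ne hb, sub_self]) (by simp)]
  linarith [abs_sub (f (y (Function.update g a e a, x))) (f (y (g a, x))), hB (y (g a, x)),
    hB (y (Function.update g a e a, x))]

/-- concentration for bounded potentials -/
theorem conc (hy : Measurable y) (hf : Measurable f) {B : ℝ} (hB : ∀ t, |f t| ≤ B) (M : ℕ) {s : ℝ}
    (hs : 0 < s) : s * ∫ g, |LZ μ y (fun _ : Fin M => f) g -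
      ∫ g, LZ μ y (fun _ : Fin M => f) g ∂(Measure.pi fun _ => σ)| ∂(Measure.pi fun _ => σ) ≤
      2 * Real.exp (M * (2 * B) ^ 2 * s ^ 2 / 2) := by
  have hB0 : 0 ≤ B := (abs_nonneg _).trans (hB 0)
  have b1 : ∀ (g : Fin M → G) x, |∑ a, f (y (g a, x))| ≤ M * B := fun g x => abs_sum_le hB _
  have b2 : ∀ g : Fin M → G, Integrable (fun x => Real.exp (∑ a, f (y (g a, x)))) μ := fun g =>
    Integrable.of_bound (Measurable.aestronglyMeasurable (by fun_prop)) (Real.exp (M * B))
      (ae_of_all _ fun x => by
        rw [Real.norm_eq_abs, abs_of_pos (Real.exp_pos _)]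
        exact Real.exp_le_exp.2 (abs_le.1 (b1 g x)).2)
  have b3 : ∀ g : Fin M → G, |LZ μ y (fun _ => f) g| ≤ M * B := fun g => by
    have c1 := log_le (H' := fun _ => 0) (b2 g) (integrable_const _) (C := M * B) fun x => by
      linarith [(abs_le.1 (b1 g x)).2]
    have c2 := log_le (H := fun _ => 0) (integrable_const _) (b2 g) (C := M * B) fun x => by
      linarith [(abs_le.1 (b1 g x)).1]
    simp only [Real.exp_zero, integral_const, probReal_univ, smul_eq_mul, mul_one, Real.log_one]
      at c1 c2
    exact abs_le.2 ⟨by unfold LZ; linarith, by unfold LZ; linarith⟩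
  have b4 : ∀ (g : Fin M → G) a e, |LZ μ y (fun _ => f) (Function.update g a e) -
      LZ μ y (fun _ => f) g| ≤ 2 * B := fun g a e => by
    have c0 := abs_update_le (y := y) hB g a e
    have c1 := log_le (b2 (Function.update g a e)) (b2 g) (C := 2 * B) fun x => by
      linarith [(abs_le.1 (c0 x)).2]
    have c2 := log_le (b2 g) (b2 (Function.update g a e)) (C := 2 * B) fun x => by
      linarith [(abs_le.1 (c0 x)).1]
    exact abs_le.2 ⟨by unfold LZ; linarith, by unfold LZ; linarith⟩
  exact conc_gen (meas_LZ hy fun _ => hf) b3 (by positivity) b4 hs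

end Vale.Agent.N157
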