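import Vale.Agent.N157.Casc

/-! Translations of the standard Gaussian measure. -/

namespace Vale.Agent.N157

open MeasureTheory ProbabilityTheory Filter Topology
open scoped RealInnerProductSpace

variable {V : Type*} [NormedAddCommGroup V] [InnerProductSpace ℝ V] [FiniteDimensional ℝ V]
  [MeasurableSpace V] [BorelSpace V]

theorem integral_cexp_stdGaussian (h t : V) :
    ∫ x, Complex.exp (((⟪h, x⟫ : ℝ) : ℂ) + ((⟪t, x⟫ : ℝ) : ℂ) * Complex.I) ∂(stdGaussian V)
      = Complex.exp (((‖h‖ ^ 2 : ℝ) - (‖t‖ ^ 2 : ℝ)) / 2 + (⟪h, t⟫ : ℝ) * Complex.I) := by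
  rw [stdGaussian, integral_map (Measurable.aemeasurable (by fun_prop))
    (Measurable.aestronglyMeasurable (by fun_prop))]
  set b := stdOrthonormalBasis ℝ V
  have e1 : ∀ x : Fin (Module.finrank ℝ V) → ℝ,
      Complex.exp (((⟪h, ∑ i, x i • b i⟫ : ℝ) : ℂ)
        + ((⟪t, ∑ i, x i • b i⟫ : ℝ) : ℂ) * Complex.I)
      = ∏ i, Complex.exp ((((⟪h, b i⟫ : ℝ) : ℂ) + ((⟪t, b i⟫ : ℝ) : ℂ) * Complex.I) * (x i : ℂ)) := by
    intro x
    rw [← Complex.exp_sum, inner_sum, inner_sum]
    congr 1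
    push_cast
    rw [Finset.sum_mul, ← Finset.sum_add_distrib]
    apply Finset.sum_congr rfl
    intro i _
    rw [real_inner_smul_right, real_inner_smul_right]
    push_cast
    ring
  simp_rw [e1]
  rw [integral_fintype_prod_eq_prod (𝕜 := ℂ) (f := fun i (x : ℝ) =>
    Complex.exp ((((⟪h, b i⟫ : ℝ) : ℂ) + ((⟪t, b i⟫ : ℝ) : ℂ) * Complex.I) * (x : ℂ)))]
  have e2 : ∀ z : ℂ, ∫ x : ℝ, Complex.exp (z * (x : ℂ)) ∂(gaussianReal 0 1)
      = Complex.exp (z ^ 2 / 2) := by
    intro z
    have := complexMGF_id_gaussianReal (μ := 0) (v := 1) z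
    simp only [complexMGF, id_eq] at this
    rw [this]
    congr 1
    push_cast
    ring
  simp_rw [e2]
  rw [← Complex.exp_sum]
  congr 1
  have h1 := b.sum_sq_inner_right h
  have h2 := b.sum_sq_inner_right t
  have h3 := b.sum_inner_mul_inner h t
  rw [← h1, ← h2, ← h3]
  push_cast
  rw [← Finset.sum_sub_distrib, Finset.sum_div, Finset.sum_mul, ← Finset.sum_add_distrib]
  apply Finset.sum_congr rfl
  intro i _
  rw [real_inner_comm (b i) h, real_inner_comm t (b i)]
  have hI : Complex.I ^ 2 = -1 := Complex.I_sq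
  linear_combination ((((⟪t, b i⟫ : ℝ) : ℂ)) ^ 2 / 2) * hI

theorem map_inner_stdGaussian (h : V) :
    (stdGaussian V).map (fun x => ⟪h, x⟫) = gaussianReal 0 (‖h‖ ^ 2).toNNReal := by
  have h1 := IsGaussian.map_eq_gaussianReal (μ := stdGaussian V) (innerSL ℝ h)
  have h2 : (fun x => ⟪h, x⟫) = ⇑(innerSL ℝ h) := by
    ext x; simp
  rw [h2, h1, integral_strongDual_stdGaussian, variance_dual_stdGaussian, innerSL_apply_norm]

theorem integrable_exp_inner (h : V) (c : ℝ) :
    Integrable (fun x => Real.exp (⟪h, x⟫ - c)) (stdGaussian V) := by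
  have h1 : Integrable (fun y : ℝ => Real.exp (1 * y)) (gaussianReal 0 (‖h‖ ^ 2).toNNReal) :=
    integrable_exp_mul_gaussianReal 1
  rw [← map_inner_stdGaussian h] at h1
  have h2 := (integrable_map_measure (by fun_prop) (by fun_prop)).mp h1
  have h3 := h2.mul_const (Real.exp (-c))
  refine h3.congr (Eventually.of_forall fun x => ?_)
  simp only [Function.comp, one_mul, ← Real.exp_add, sub_eq_add_neg]

/-- Cameron-Martin: translation of the standard Gaussian measure. -/
theorem map_add_stdGaussian (h : V) :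
    (stdGaussian V).map (fun x => x + h)
      = (stdGaussian V).withDensity (fun x => ENNReal.ofReal (Real.exp (⟪h, x⟫ - ‖h‖ ^ 2 / 2))) := by
  have hfin : IsFiniteMeasure ((stdGaussian V).withDensity
      (fun x => ENNReal.ofReal (Real.exp (⟪h, x⟫ - ‖h‖ ^ 2 / 2)))) :=
    isFiniteMeasure_withDensity_ofReal (integrable_exp_inner h _).2
  have : IsProbabilityMeasure ((stdGaussian V).map (fun x => x + h)) :=
    Measure.isProbabilityMeasure_map (by fun_prop)
  apply Measure.ext_of_charFun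
  ext t
  rw [charFun_apply, charFun_apply, integral_map (by fun_prop) (by fun_prop),
    integral_withDensity_eq_integral_toReal_smul (by fun_prop)
      (Eventually.of_forall fun x => ENNReal.ofReal_lt_top)]
  have e1 : ∀ x : V, Complex.exp (((⟪x + h, t⟫ : ℝ) : ℂ) * Complex.I)
      = Complex.exp ((⟪h, t⟫ : ℝ) * Complex.I)
        * Complex.exp (((⟪(0:V), x⟫ : ℝ) : ℂ) + ((⟪t, x⟫ : ℝ) : ℂ) * Complex.I) := by
    intro x
    rw [← Complex.exp_add, inner_add_left, inner_zero_left, real_inner_comm t x]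
    congr 1
    push_cast
    ring
  have e2 : ∀ x : V, (ENNReal.ofReal (Real.exp (⟪h, x⟫ - ‖h‖ ^ 2 / 2))).toReal
      • Complex.exp (((⟪x, t⟫ : ℝ) : ℂ) * Complex.I)
      = Complex.exp (-((‖h‖ ^ 2 : ℝ) / 2))
        * Complex.exp (((⟪h, x⟫ : ℝ) : ℂ) + ((⟪t, x⟫ : ℝ) : ℂ) * Complex.I) := by
    intro x
    rw [ENNReal.toReal_ofReal (Real.exp_pos _).le, Complex.real_smul, Complex.ofReal_exp,
      ← Complex.exp_add, ← Complex.exp_add, real_inner_comm t x]
    congr 1
    push_cast
    ring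
  simp_rw [e1, e2]
  rw [integral_const_mul, integral_const_mul, integral_cexp_stdGaussian,
    integral_cexp_stdGaussian, ← Complex.exp_add, ← Complex.exp_add]
  congr 1
  rw [norm_zero, inner_zero_left]
  push_cast
  ring

theorem sq_inner (h : V) : Integrable (fun z => ⟪h, z⟫ ^ 2) (stdGaussian V) ∧
    ∫ z, ⟪h, z⟫ ^ 2 ∂stdGaussian V = ‖h‖ ^ 2 := by
  refine ⟨(IsGaussian.memLp_dual (stdGaussian V) (innerSL ℝ h) 2 (by simp)).integrable_sq, ?_⟩
  have h1 := variance_dual_stdGaussian (innerSL ℝ h)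
  rw [variance_of_integral_eq_zero (innerSL ℝ h).continuous.aemeasurable
    (integral_strongDual_stdGaussian _), innerSL_apply_norm] at h1
  exact h1

theorem sq_norm : Integrable (fun z : V => ‖z‖ ^ 2) (stdGaussian V) ∧
    ∫ z, ‖z‖ ^ 2 ∂stdGaussian V = Module.finrank ℝ V := by
  have b := stdOrthonormalBasis ℝ V
  simp only [← b.sum_sq_inner_right]
  refine ⟨integrable_finsetSum _ fun i _ => (sq_inner (b i)).1, ?_⟩
  rw [integral_finsetSum _ fun i _ => (sq_inner (b i)).1]
  simp [(sq_inner (b _)).2]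

/-- the entropy inequality for a translation -/
theorem shift_le {ψ : V → ℝ} (hψ : Measurable ψ) {B : ℝ} (hB : ∀ z, |ψ z| ≤ B) (h : V) :
    ∫ z, ψ (z + h) ∂stdGaussian V ≤
      Real.log (∫ z, Real.exp (ψ z) ∂stdGaussian V) + ‖h‖ ^ 2 / 2 := by
  have i1 : Integrable (fun z => ψ (z + h)) (stdGaussian V) :=
    Integrable.of_bound (Measurable.aestronglyMeasurable (by fun_prop)) B (ae_of_all _ fun z => hB _)
  have i2 : Integrable (fun z => ⟪-h, z⟫) (stdGaussian V) :=
    IsGaussian.integrable_dual (stdGaussian V) (innerSL ℝ (-h))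
  have i3 : Integrable (fun z => ⟪-h, z⟫ - ‖-h‖ ^ 2 / 2) (stdGaussian V) :=
    i2.sub (integrable_const _)
  have i4 : Integrable (fun z => Real.exp (⟪-h, z⟫ - ‖-h‖ ^ 2 / 2 + ψ (z + h))) (stdGaussian V) :=
    ((integrable_exp_inner (-h) (‖-h‖ ^ 2 / 2)).mul_const (Real.exp B)).mono'
      (Measurable.aestronglyMeasurable (by fun_prop)) (ae_of_all _ fun z => by
        rw [Real.norm_eq_abs, abs_of_pos (Real.exp_pos _), ← Real.exp_add]
        exact Real.exp_le_exp.2 (by linarith [(abs_le.1 (hB (z + h))).2]))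
  have a1 := jensen (G := fun z => ⟪-h, z⟫ - ‖-h‖ ^ 2 / 2 + ψ (z + h)) (i3.add i1) i4
  have a2 : ∫ z, Real.exp (ψ (z + h)) ∂(stdGaussian V).map (fun x => x + -h) =
      ∫ z, Real.exp (ψ z) ∂stdGaussian V := by
    rw [integral_map (by fun_prop) (Measurable.aestronglyMeasurable (by fun_prop))]
    simp
  rw [map_add_stdGaussian, integral_withDensity_eq_integral_toReal_smul (by fun_prop)
    (Eventually.of_forall fun x => ENNReal.ofReal_lt_top)] at a2
  simp only [ENNReal.toReal_ofReal (Real.exp_pos _).le, smul_eq_mul, ← Real.exp_add] at a2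
  have a3 : ∫ z, ⟪-h, z⟫ ∂stdGaussian V = 0 := integral_strongDual_stdGaussian (innerSL ℝ (-h))
  rw [a2, integral_add i3 i1, integral_sub i2 (integrable_const _), a3] at a1
  simp only [integral_const, probReal_univ, smul_eq_mul, one_mul, norm_neg] at a1
  linarith

end Vale.Agent.N157
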