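import Vale.Agent.N157.Main
import Vale.Agent.N157.Shift

/-! The ground state energy of the spherical perceptron. -/

namespace Vale.Agent.N157

open MeasureTheory ProbabilityTheory Filter Topology Vale.Agent.P157.Par Vale.Agent.P157.Sph
  Vale.Agent.P157W88
open scoped InnerProductSpace

variable {M N : ℕ} {f : ℝ → ℝ} {B : ℝ}

theorem local_le (hN : 1 ≤ N) {u v : ℝ → ℝ} (hv : Measurable v) (hB : ∀ s, |v s| ≤ B)
    {η D t β : ℝ} (hη : 0 < η) (hD : 0 ≤ D) (ht : 0 < t) (hβ : 0 < β)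
    (h1 : ∀ y ξ r, |ξ| ≤ η → |r - 1| ≤ η → u y ≤ v ((y + ξ) / r)) (h2 : ∀ y y', u y ≤ v y' + D)
    (g : Fin M → E N) {x : E N} (hx : ‖x‖ = √N) :
    1 / N * ∑ a, u (fld N (g a, x)) ≤ press (sphereLaw N) (fun s => β * v s) g / β +
      t ^ 2 / (2 * β) + D / (η * t) ^ 2 * ((∑ a, ‖g a‖ ^ 2 / N + M) / N) := by
  have hN' : (0 : ℝ) < N := by exact_mod_cast hN
  have h0 : 0 < √(N : ℝ) := Real.sqrt_pos.2 hN'
  have hm := meas_fld N
  have hB' : ∀ s, |β * v s| ≤ β * B := fun s => by
    rw [abs_mul, abs_of_pos hβ]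
    exact mul_le_mul_of_nonneg_left (hB s) hβ.le
  set ψ : E N → ℝ := fun z => ∑ a, β * v (fld N (g a, (√(N : ℝ) / ‖z‖) • z)) with hψ
  have a0 : Measurable ψ := by fun_prop
  have a0' : ∀ z, |ψ z| ≤ M * (β * B) := fun z => abs_sum_le (f := fun s => β * v s) hB' _
  have a1 := shift_le a0 a0' (t • x)
  have a2 : LZ (sphereLaw N) (fld N) (fun _ s => β * v s) g =
      Real.log (∫ z, Real.exp (ψ z) ∂stdGaussian (E N)) := by
    rw [LZ, sphereLaw_gauss hN, integral_map (by fun_prop)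
      (Measurable.aestronglyMeasurable (by fun_prop))]
  have a3 : ‖t • x‖ = t * √N := by rw [norm_smul, Real.norm_eq_abs, abs_of_pos ht, hx]
  rw [← a2, a3, mul_pow, Real.sq_sqrt hN'.le] at a1
  have hs : 0 < t * √N := mul_pos ht h0
  have a4 : ∀ (z : E N) a, u (fld N (g a, x)) ≤
      v (fld N (g a, (√(N : ℝ) / ‖z + t • x‖) • (z + t • x))) +
        D / ((η * t) ^ 2 * N) * (⟪g a, z⟫_ℝ ^ 2 + ‖z‖ ^ 2) := fun z a => by
    have b1 : fld N (g a, (√(N : ℝ) / ‖z + t • x‖) • (z + t • x)) =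
        (fld N (g a, x) + ⟪g a, z⟫_ℝ / (t * √N)) / (‖z + t • x‖ / (t * √N)) := by
      simp only [fld, inner_smul_right, inner_add_right]
      field_simp
      ring
    have b2 : |‖z + t • x‖ - t * √N| ≤ ‖z‖ := by
      simpa [a3] using abs_norm_sub_norm_le (z + t • x) (t • x)
    have b3 : (η * t) ^ 2 * N = (η * (t * √N)) ^ 2 := by
      rw [mul_pow, mul_pow, mul_pow, Real.sq_sqrt hN'.le, mul_assoc]
    have b4 : 0 < η * (t * √N) := mul_pos hη hs
    have b5 : ∀ w : ℝ, (η * (t * √N)) ^ 2 ≤ w → D ≤ D / (η * (t * √N)) ^ 2 * w := fun w hw => by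
      rw [div_mul_eq_mul_div, le_div_iff₀ (by positivity)]
      exact mul_le_mul_of_nonneg_left hw hD
    rw [b3]
    by_cases c1 : |⟪g a, z⟫_ℝ| ≤ η * (t * √N)
    · by_cases c2 : ‖z‖ ≤ η * (t * √N)
      · rw [b1]
        refine (h1 _ _ _ ?_ ?_).trans (le_add_of_nonneg_right (by positivity))
        · rwa [abs_div, abs_of_pos hs, div_le_iff₀ hs]
        · rw [div_sub_one hs.ne', abs_div, abs_of_pos hs, div_le_iff₀ hs]
          exact b2.trans c2
      · refine (h2 _ _).trans (add_le_add_right (b5 _ ?_) _)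
        nlinarith [sq_nonneg ⟪g a, z⟫_ℝ, not_le.1 c2]
    · refine (h2 _ _).trans (add_le_add_right (b5 _ ?_) _)
      nlinarith [sq_nonneg ‖z‖, not_le.1 c1, sq_abs ⟪g a, z⟫_ℝ]
  have i1 : Integrable (fun z => ψ (z + t • x)) (stdGaussian (E N)) :=
    Integrable.of_bound (Measurable.aestronglyMeasurable (by fun_prop)) _
      (ae_of_all _ fun z => a0' _)
  have i2 : ∀ a, Integrable (fun z => ⟪g a, z⟫_ℝ ^ 2 + ‖z‖ ^ 2) (stdGaussian (E N)) := fun a =>
    (sq_inner (g a)).1.add sq_norm.1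
  have i3 := integrable_finsetSum Finset.univ fun a _ => i2 a
  have a5 := integral_mono (integrable_const (∑ a, u (fld N (g a, x))))
    ((i1.div_const β).add (i3.const_mul (D / ((η * t) ^ 2 * N)))) fun z => by
      simp only [Pi.add_apply, hψ, ← Finset.mul_sum, mul_div_cancel_left₀ _ hβ.ne']
      rw [Finset.mul_sum, ← Finset.sum_add_distrib]
      exact Finset.sum_le_sum fun a _ => a4 z a
  rw [integral_add' (i1.div_const β) (i3.const_mul _), integral_div, integral_const_mul,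
    integral_finsetSum _ fun a _ => i2 a] at a5
  simp only [integral_add (sq_inner _).1 sq_norm.1, (sq_inner _).2, sq_norm.2, integral_const,
    probReal_univ, smul_eq_mul, one_mul, finrank_euclideanSpace, Fintype.card_fin,
    Finset.sum_add_distrib, Finset.sum_const, Finset.card_univ, nsmul_eq_mul] at a5
  have a6 := a5.trans (add_le_add_left (div_le_div_of_nonneg_right a1 hβ.le) _)
  refine (mul_le_mul_of_nonneg_left a6 (by positivity)).trans (le_of_eq ?_)
  rw [press_LZ, ← Finset.sum_div]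
  field_simp

/-- the indicator of large values -/
noncomputable def ind (R s : ℝ) : ℝ := if R < |s| then 1 else 0

theorem ind_meas (R : ℝ) : Measurable (ind R) :=
  Measurable.ite (measurableSet_lt measurable_const (by fun_prop)) measurable_const measurable_const

theorem ind_bd (R s : ℝ) : 0 ≤ ind R s ∧ ind R s ≤ 1 := by
  unfold ind
  split_ifs <;> norm_num

theorem sup_bdd (hB : ∀ s, |f s| ≤ B) (g : Fin M → E N) (x : E N) :
    |1 / (N : ℝ) * ∑ a, f (fld N (g a, x))| ≤ 1 / N * (M * B) := by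
  rw [abs_mul, abs_of_nonneg (by positivity)]
  exact mul_le_mul_of_nonneg_left (abs_sum_le hB _) (by positivity)

theorem le_supVal (hB : ∀ s, |f s| ≤ B) (g : Fin M → E N) {x : E N} (hx : ‖x‖ ^ 2 = N) :
    1 / (N : ℝ) * ∑ a, f (fld N (g a, x)) ≤ supVal f g :=
  le_ciSup (f := fun x : {x : E N // ‖x‖ ^ 2 = N} => 1 / (N : ℝ) * ∑ a, f (fld N (g a, x.1)))
    ⟨_, by rintro _ ⟨x, rfl⟩; exact (abs_le.1 (sup_bdd hB g x.1)).2⟩ ⟨x, hx⟩

theorem sph_nonempty (N : ℕ) : Nonempty {x : E N // ‖x‖ ^ 2 = N} :=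
  ⟨⟨WithLp.toLp 2 fun _ => 1, by simp [EuclideanSpace.real_norm_sq_eq]⟩⟩

theorem supVal_le {g : Fin M → E N} {c : ℝ}
    (h : ∀ x : E N, ‖x‖ ^ 2 = N → 1 / (N : ℝ) * ∑ a, f (fld N (g a, x)) ≤ c) : supVal f g ≤ c :=
  have := sph_nonempty N
  ciSup_le fun x => h x.1 x.2

theorem abs_supVal (hB : ∀ s, |f s| ≤ B) (g : Fin M → E N) : |supVal f g| ≤ 1 / N * (M * B) := by
  obtain ⟨x, hx⟩ := sph_nonempty N
  exact abs_le.2 ⟨(abs_le.1 (sup_bdd hB g x)).1.trans (le_supVal hB g hx),
    supVal_le fun x _ => (abs_le.1 (sup_bdd hB g x)).2⟩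

theorem meas_supVal (hf : Continuous f) (hB : ∀ s, |f s| ≤ B) :
    Measurable fun g : Fin M → E N => supVal f g :=
  (lowerSemicontinuous_ciSup
    (f := fun (x : {x : E N // ‖x‖ ^ 2 = N}) (g : Fin M → E N) =>
      1 / (N : ℝ) * ∑ a, f (⟪g a, x.1⟫_ℝ / √(N : ℝ)))
    (fun g => ⟨_, by rintro _ ⟨x, rfl⟩; exact (abs_le.1 (sup_bdd hB g x.1)).2⟩)
    fun x => Continuous.lowerSemicontinuous (by fun_prop)).measurable

theorem int_supVal (hf : Continuous f) (hB : ∀ s, |f s| ≤ B) :
    Integrable (fun g => supVal f g) (pat M N) :=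
  Integrable.of_bound (meas_supVal hf hB).aestronglyMeasurable _ (ae_of_all _ (abs_supVal hB))

theorem press_le_sup (hN : 1 ≤ N) (hf : Measurable f) (hB : ∀ s, |f s| ≤ B) {β : ℝ} (hβ : 0 < β)
    (g : Fin M → E N) : press (sphereLaw N) (fun s => β * f s) g / β ≤ supVal f g := by
  have := sphereLaw_prob hN
  have hN' : (0 : ℝ) < N := by exact_mod_cast hN
  have hm := meas_fld N
  have a0 : ∀ᵐ x ∂sphereLaw N, Real.exp (∑ a, β * f (fld N (g a, x))) ≤
      Real.exp (β * (N * supVal f g)) := by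
    filter_upwards [sphereLaw_ae N] with x hx
    have := le_supVal hB g (x := x) (by rw [hx, Real.sq_sqrt hN'.le])
    rw [one_div, inv_mul_le_iff₀ hN'] at this
    rw [← Finset.mul_sum]
    exact Real.exp_le_exp.2 (mul_le_mul_of_nonneg_left this hβ.le)
  have i1 : Integrable (fun x => Real.exp (∑ a, β * f (fld N (g a, x)))) (sphereLaw N) :=
    Integrable.of_bound (Measurable.aestronglyMeasurable (by fun_prop)) _ (a0.mono fun x hx => by
      rwa [Real.norm_eq_abs, abs_of_pos (Real.exp_pos _)])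
  have a1 := integral_mono_ae i1 (integrable_const _) a0
  simp only [integral_const, probReal_univ, smul_eq_mul, one_mul] at a1
  have a2 := Real.log_le_log (integral_exp_pos i1) a1
  rw [Real.log_exp] at a2
  rw [press_LZ, div_le_iff₀ hβ, one_div, inv_mul_le_iff₀ hN', LZ]
  linarith

theorem int_W (hN : 1 ≤ N) : Integrable (fun g : Fin M → E N => (∑ a, ‖g a‖ ^ 2 / N + M) / (N : ℝ))
    (pat M N) ∧ ∫ g : Fin M → E N, (∑ a, ‖g a‖ ^ 2 / N + M) / (N : ℝ) ∂pat M N = 2 * (M / N) := by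
  have hN' : (N : ℝ) ≠ 0 := by exact_mod_cast (show N ≠ 0 by omega)
  have a1 := fun a : Fin M => of_law
    (measurePreserving_eval (fun _ : Fin M => stdGaussian (E N)) a).hasLaw
      (sq_norm.1.div_const (N : ℝ))
  simp only [Function.eval] at a1
  have i1 := integrable_finsetSum Finset.univ fun a _ => (a1 a).1
  refine ⟨(i1.add (integrable_const _)).div_const _, ?_⟩
  rw [integral_div, integral_add i1 (integrable_const _), integral_finsetSum _ fun a _ => (a1 a).1]
  simp only [fun a => (a1 a).2, integral_div, sq_norm.2, finrank_euclideanSpace, Fintype.card_fin,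
    div_self hN', integral_const, probReal_univ, smul_eq_mul, one_mul, Finset.sum_const,
    Finset.card_univ, nsmul_eq_mul, mul_one]
  ring

theorem count_le (hN : 1 ≤ N) {R l : ℝ} (hR : 0 < R) (hl : 0 < l) :
    ∫ g, press (sphereLaw N) (fun s => l * ind R s) g ∂pat M N ≤ M / N * (Real.exp l / R ^ 2) := by
  have := sphereLaw_prob hN
  have hN' : (0 : ℝ) < N := by exact_mod_cast hN
  have c1 : Cls gam fun s => l * ind R s := cls_of_bdd ((ind_meas R).const_mul l) (B := l) fun s => by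
    rw [abs_of_nonneg (mul_nonneg hl.le (ind_bd R s).1)]
    exact mul_le_of_le_one_right hl.le (ind_bd R s).2
  have c2 : Cls gam fun _ => 0 := cls_of_bdd measurable_const (B := 0) fun _ => by simp
  have h := (sphereLaw_ae N).mono fun x hx => law_fld hN hx
  have a1 := all_step (meas_fld N) h c1 c2 0 M
  have i1 := int_LZ (F := fun _ : Fin M => fun s => l * ind R s) (meas_fld N) h fun _ => c1
  have a2 := integral_mono i1 i1.pos_part fun g => le_max_left _ _
  have i2 : Integrable (fun s : ℝ => s ^ 2) gam := IsGaussian.memLp_two_id.integrable_sq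
  have a3 : ∫ s, s ^ 2 ∂gam = 1 := by
    have := variance_id_gaussianReal (μ := 0) (v := 1)
    rwa [variance_of_integral_eq_zero aemeasurable_id (by simp)] at this
  have a4 := integral_mono_of_nonneg (μ := gam) (f := fun s => max (Real.exp (l * ind R s) - 1) 0)
    (ae_of_all _ fun _ => le_max_right _ _) (i2.const_mul (Real.exp l / R ^ 2))
    (ae_of_all _ fun s => by
      beta_reduce
      refine max_le ?_ (by positivity)
      unfold ind
      split_ifs with hs
      · have : R ^ 2 ≤ s ^ 2 := by nlinarith [sq_abs s]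
        rw [mul_one, div_mul_eq_mul_div, le_div_iff₀ (by positivity)]
        nlinarith [Real.exp_pos l]
      · rw [mul_zero, Real.exp_zero, sub_self]
        positivity)
  rw [integral_const_mul, a3, mul_one] at a4
  have a5 : ∀ g : Fin M → E N, LZ (sphereLaw N) (fld N) (fun _ _ => 0) g = 0 := fun g => by
    simp [LZ]
  simp only [a5, sub_zero, del, Real.exp_zero, one_mul, neg_zero, max_self, integral_zero,
    add_zero] at a1
  simp only [press_LZ, integral_const_mul]
  rw [one_div, inv_mul_le_iff₀ hN', ← mul_assoc, mul_div_cancel₀ _ hN'.ne']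
  exact a2.trans (a1.trans (mul_le_mul_of_nonneg_left a4 (Nat.cast_nonneg M)))

theorem loc_ind {R : ℝ} (hR : 1 ≤ R) (y ξ r : ℝ) (d1 : |ξ| ≤ 1 / 4) (d2 : |r - 1| ≤ 1 / 4) :
    ind R y ≤ ind (R / 2) ((y + ξ) / r) := by
  by_cases hy : R < |y|
  · have d3 := abs_le.1 d2
    have d4 : |y| ≤ |y + ξ| + |ξ| := by simpa using abs_sub (y + ξ) ξ
    have d5 : R / 2 < |(y + ξ) / r| := by
      rw [abs_div, abs_of_pos (show 0 < r by linarith), lt_div_iff₀ (by linarith)]
      nlinarith
    simp [ind, hy, d5]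
  · simpa [ind, hy] using (ind_bd (R / 2) ((y + ξ) / r)).1

theorem loc_cont (hf : Continuous f) (hB : ∀ s, |f s| ≤ B) {R τ : ℝ} (hR : 1 ≤ R) (h0 : 0 < τ) :
    ∃ η > 0, ∀ y ξ r, |ξ| ≤ η → |r - 1| ≤ η → f y - τ - 2 * B * ind R y ≤ f ((y + ξ) / r) := by
  obtain ⟨δ, hδ, hu⟩ := Metric.uniformContinuousOn_iff.1
    ((isCompact_Icc (a := -(R + 1)) (b := R + 1)).uniformContinuousOn_of_continuous
      hf.continuousOn) τ h0
  obtain ⟨η, hη⟩ : ∃ η, η = min δ 1 / (4 * (R + 1)) := ⟨_, rfl⟩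
  have hη0 : 0 < η := by rw [hη]; positivity
  have hη1 : η * (4 * (R + 1)) = min δ 1 := by rw [hη]; field_simp
  refine ⟨η, hη0, fun y ξ r d1 d2 => ?_⟩
  by_cases hy : R < |y|
  · simp only [ind, hy, if_true]
    linarith [(abs_le.1 (hB y)).2, (abs_le.1 (hB ((y + ξ) / r))).1]
  · have d3 := abs_le.1 d2
    have d4 := min_le_left δ 1
    have d5 := min_le_right δ 1
    have d6 : η ≤ 1 / 2 := by nlinarith
    have d7 : |(y + ξ) / r - y| < min δ 1 := by
      rw [div_sub' (show r ≠ 0 by linarith), abs_div, abs_of_pos (show 0 < r by linarith),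
        div_lt_iff₀ (by linarith), show y + ξ - r * y = ξ - (r - 1) * y by ring, ← hη1]
      have e1 := abs_sub ξ ((r - 1) * y)
      have e2 := mul_le_mul d2 (not_lt.1 hy) (abs_nonneg y) hη0.le
      have e3 : 0 < η * (R + 1) := by positivity
      have e4 := mul_le_mul_of_nonneg_left (show 1 / 2 ≤ r by linarith) e3.le
      rw [abs_mul] at e1
      linarith
    have d8 := abs_le.1 (not_lt.1 hy)
    have d9 := abs_lt.1 (d7.trans_le d5)
    have := hu ((y + ξ) / r) ⟨by linarith, by linarith⟩ y ⟨by linarith, by linarith⟩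
      (d7.trans_le d4)
    simp only [ind, hy, if_false]
    linarith [(abs_lt.1 this).1]

theorem point_le (hN : 1 ≤ N) (hf : Measurable f) (hB : ∀ s, |f s| ≤ B) {R τ η β : ℝ} (hR : 1 ≤ R)
    (h0 : 0 < τ) (h1 : τ ≤ 1) (hη : 0 < η) (hβ : 0 < β)
    (h : ∀ y ξ r, |ξ| ≤ η → |r - 1| ≤ η → f y - τ - 2 * B * ind R y ≤ f ((y + ξ) / r))
    (g : Fin M → E N) : supVal f g ≤ press (sphereLaw N) (fun s => β * f s) g / β +
      2 * B / (1 / τ ^ 3) * press (sphereLaw N) (fun s => 1 / τ ^ 3 * ind (R / 2) s) g +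
      34 * B * τ * ((∑ a, ‖g a‖ ^ 2 / N + M) / N) +
      ((1 / (η * τ)) ^ 2 / 2 / β + τ * (M / N) + B * τ) := by
  have hB0 : 0 ≤ B := (abs_nonneg _).trans (hB 0)
  refine supVal_le fun x hx => ?_
  have hx' : ‖x‖ = √N := by rw [← hx, Real.sqrt_sq (norm_nonneg _)]
  have b1 := local_le hN (u := ind R) (ind_meas (R / 2)) (B := 1)
    (fun s => by rw [abs_of_nonneg (ind_bd _ s).1]; exact (ind_bd _ s).2) (η := 1 / 4) (D := 1)
    (t := 1 / τ) (β := 1 / τ ^ 3) (by norm_num) zero_le_one (by positivity) (by positivity)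
    (loc_ind hR) (fun y y' => by linarith [(ind_bd R y).2, (ind_bd (R / 2) y').1]) g hx'
  have b2 := local_le hN (u := fun y => f y - τ - 2 * B * ind R y) hf hB hη
    (D := 2 * B) (t := 1 / (η * τ)) (by positivity) (by positivity) hβ h (fun y y' => by
      linarith [(abs_le.1 (hB y)).2, (abs_le.1 (hB y')).1, mul_nonneg hB0 (ind_bd R y).1]) g hx'
  simp only [Finset.sum_sub_distrib, ← Finset.mul_sum, Finset.sum_const, Finset.card_univ,
    Fintype.card_fin, nsmul_eq_mul] at b2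
  have hW : 0 ≤ (∑ a, ‖g a‖ ^ 2 / N + M) / (N : ℝ) :=
    div_nonneg (add_nonneg (Finset.sum_nonneg fun a _ => div_nonneg (sq_nonneg _) N.cast_nonneg)
      M.cast_nonneg) N.cast_nonneg
  generalize (∑ a, ‖g a‖ ^ 2 / N + M) / (N : ℝ) = W at b1 b2 hW ⊢
  generalize press (sphereLaw N) (fun s => 1 / τ ^ 3 * ind (R / 2) s) g = p at b1 ⊢
  generalize press (sphereLaw N) (fun s => β * f s) g = p' at b2 ⊢
  generalize ∑ a, f (fld N (g a, x)) = s at b2 ⊢
  generalize ∑ a, ind R (fld N (g a, x)) = s' at b1 b2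
  have e1 : (1 / τ) ^ 2 / (2 * (1 / τ ^ 3)) = τ / 2 := by field_simp
  have e2 : 1 / (1 / 4 * (1 / τ)) ^ 2 = 16 * τ ^ 2 := by field_simp; norm_num
  have e3 : 2 * B / (η * (1 / (η * τ))) ^ 2 = 2 * B * τ ^ 2 := by field_simp
  rw [e1, e2] at b1
  rw [e3, ← div_div] at b2
  have b3 := mul_le_mul_of_nonneg_left b1 (show 0 ≤ 2 * B by positivity)
  have b4 : B * τ ^ 2 * W ≤ B * τ * W :=
    mul_le_mul_of_nonneg_right (mul_le_mul_of_nonneg_left (by nlinarith) hB0) hW
  have e5 : 1 / (N : ℝ) * (s - M * τ - 2 * B * s') =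
      1 / N * s - τ * (M / N) - 2 * B * (1 / N * s') := by ring
  rw [e5] at b2
  rw [div_mul_eq_mul_div (2 * B), mul_div_assoc]
  linarith

theorem sup_le (hf : Continuous f) (hB : ∀ s, |f s| ≤ B) {α τ : ℝ} (hα : 0 < α) (h0 : 0 < τ)
    (h1 : τ ≤ 1) : ∃ c, ∀ β > 0, ∀ N : ℕ, 1 ≤ N → ∫ g, supVal f g ∂pat ⌊α * N⌋₊ N ≤
      mp sphereLaw α (fun s => β * f s) N / β + c / β + τ * (α + B * (70 * α + 1)) := by
  have hB0 : 0 ≤ B := (abs_nonneg _).trans (hB 0)
  obtain ⟨l, hl⟩ : ∃ l, l = 1 / τ ^ 3 := ⟨_, rfl⟩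
  have hl0 : 0 < l := by rw [hl]; positivity
  obtain ⟨R, hR⟩ : ∃ R, R = 1 + 4 * Real.exp l / (l * τ) := ⟨_, rfl⟩
  have hR1 : 1 ≤ R := by rw [hR]; exact le_add_of_nonneg_right (by positivity)
  have hR2 : Real.exp l / (R / 2) ^ 2 ≤ l * τ := by
    have a1 : 4 * Real.exp l ≤ R * (l * τ) := by
      rw [← div_le_iff₀ (by positivity)]; linarith
    have a2 : R * (l * τ) ≤ R * R * (l * τ) :=
      mul_le_mul_of_nonneg_right (by nlinarith) (by positivity)
    rw [div_le_iff₀ (by positivity)]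
    nlinarith
  obtain ⟨η, hη, hu⟩ := loc_cont hf hB hR1 h0
  refine ⟨(1 / (η * τ)) ^ 2 / 2, fun β hβ N hN => ?_⟩
  have hN' : (0 : ℝ) < N := by exact_mod_cast hN
  have hM : (⌊α * N⌋₊ : ℝ) / N ≤ α := by
    rw [div_le_iff₀ hN']; exact Nat.floor_le (by positivity)
  rw [mp]
  generalize ⌊α * N⌋₊ = M at hM
  have c1 : Cls gam fun s => β * f s := cls_of_bdd (hf.measurable.const_mul β) (B := β * B)
    fun s => by rw [abs_mul, abs_of_pos hβ]; exact mul_le_mul_of_nonneg_left (hB s) hβ.le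
  have c2 : Cls gam fun s => l * ind (R / 2) s :=
    cls_of_bdd ((ind_meas _).const_mul l) (B := l) fun s => by
      rw [abs_of_nonneg (mul_nonneg hl0.le (ind_bd _ s).1)]
      exact mul_le_of_le_one_right hl0.le (ind_bd _ s).2
  have i1 := (int_press (fun _ hN => sphereLaw_prob hN) sphereLaw_ae c1 hN M).div_const β
  have i2 := (int_press (fun _ hN => sphereLaw_prob hN) sphereLaw_ae c2 hN M).const_mul (2 * B / l)
  have i3 := (int_W (M := M) hN).1.const_mul (34 * B * τ)
  have a1 := integral_mono (int_supVal hf hB) (((i1.add i2).add i3).add (integrable_const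
    ((1 / (η * τ)) ^ 2 / 2 / β + τ * (M / N) + B * τ))) fun g => by
      simp only [Pi.add_apply, hl]
      exact point_le hN hf.measurable hB hR1 h0 h1 hη hβ hu g
  rw [integral_add' ((i1.add i2).add i3) (integrable_const _), integral_add' (i1.add i2) i3,
    integral_add' i1 i2, integral_div, integral_const_mul, integral_const_mul, (int_W hN).2] at a1
  simp only [integral_const, probReal_univ, smul_eq_mul, one_mul] at a1
  have a2 := mul_le_mul_of_nonneg_left ((count_le (M := M) hN (R := R / 2) (by linarith) hl0).trans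
    (mul_le_mul hM hR2 (by positivity) hα.le)) (show 0 ≤ 2 * B / l by positivity)
  have a3 : 2 * B / l * (α * (l * τ)) = 2 * B * α * τ := by field_simp
  have a4 := mul_le_mul_of_nonneg_left hM (show 0 ≤ 68 * B * τ + τ by positivity)
  linarith

/-- the ground state energy -/
theorem ground (hf : Continuous f) (hB : ∀ s, |f s| ≤ B) {α : ℝ} (hα : 0 < α) {L : ℝ → ℝ}
    (hL : ∀ β > 0, Limit sphereLaw α (fun s => β * f s) (L β)) :
    ∃ e, IsLUB {y | ∃ β, 0 < β ∧ y = L β / β} e ∧ SupLimit α f e := by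
  have hB0 : 0 ≤ B := (abs_nonneg _).trans (hB 0)
  have hM : ∀ N : ℕ, 1 / (N : ℝ) * ⌊α * N⌋₊ ≤ α := fun N => by
    rcases Nat.eq_zero_or_pos N with rfl | hN
    · simpa using hα.le
    · rw [one_div, inv_mul_le_iff₀ (by exact_mod_cast hN), mul_comm]
      exact Nat.floor_le (by positivity)
  have a1 : ∀ β > 0, ∀ a < L β / β, ∀ᶠ N : ℕ in atTop, a < ∫ g, supVal f g ∂pat ⌊α * N⌋₊ N := by
    intro β hβ a ha
    filter_upwards [((Limit.canon (hL β hβ)).div_const β).eventually_const_lt ha,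
      eventually_ge_atTop 1] with N h1 hN
    have c1 : Cls gam fun s => β * f s := cls_of_bdd (hf.measurable.const_mul β) (B := β * B)
      fun s => by rw [abs_mul, abs_of_pos hβ]; exact mul_le_mul_of_nonneg_left (hB s) hβ.le
    rw [mp, ← integral_div] at h1
    exact h1.trans_le (integral_mono
      ((int_press (fun _ hN => sphereLaw_prob hN) sphereLaw_ae c1 hN _).div_const β)
      (int_supVal hf hB) (press_le_sup hN hf.measurable hB hβ))
  have hG := isLUB_csSup (s := {y | ∃ β, 0 < β ∧ y = L β / β}) ⟨_, 1, one_pos, rfl⟩ ⟨α * B, by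
    rintro _ ⟨β, hβ, rfl⟩
    refine le_of_forall_lt_imp_le_of_dense fun a ha => ?_
    obtain ⟨N, hN⟩ := (a1 β hβ a ha).exists
    have b1 := integral_mono (int_supVal (M := ⌊α * N⌋₊) (N := N) hf hB) (integrable_const (α * B))
      fun g => (abs_le.1 (abs_supVal hB g)).2.trans (by
        rw [← mul_assoc]; exact mul_le_mul_of_nonneg_right (hM N) hB0)
    simp only [integral_const, probReal_univ, smul_eq_mul, one_mul] at b1
    linarith⟩
  generalize sSup {y | ∃ β, 0 < β ∧ y = L β / β} = e at hG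
  have a2 : Tendsto (fun N : ℕ => ∫ g, supVal f g ∂pat ⌊α * N⌋₊ N) atTop (𝓝 e) := by
    refine tendsto_order.2 ⟨fun a ha => ?_, fun a ha => ?_⟩
    · obtain ⟨_, ⟨β, hβ, rfl⟩, h, -⟩ := hG.exists_between ha
      exact a1 β hβ a h
    · have hK : 0 < α + B * (70 * α + 1) := by positivity
      have hd : 0 < (a - e) / 3 := by linarith
      obtain ⟨c, hc⟩ := sup_le hf hB hα (τ := min 1 ((a - e) / 3 / (α + B * (70 * α + 1))))
        (lt_min one_pos (by positivity)) (min_le_left _ _)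
      obtain ⟨β, hβ, b1⟩ := ((eventually_gt_atTop 0).and
        ((tendsto_const_nhds (x := c).div_atTop tendsto_id).eventually_lt_const hd)).exists
      have b2 := mul_le_mul_of_nonneg_right
        (min_le_right 1 ((a - e) / 3 / (α + B * (70 * α + 1)))) hK.le
      rw [div_mul_cancel₀ _ hK.ne'] at b2
      have b3 : L β / β ≤ e := hG.1 ⟨β, hβ, rfl⟩
      filter_upwards [((Limit.canon (hL β hβ)).div_const β).eventually_lt_const
        (lt_add_of_pos_right _ hd), eventually_ge_atTop 1] with N h1 hN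
      have := hc β hβ N hN
      simp only [id] at b1
      linarith
  have a3 : Tendsto (fun N : ℕ => ∫ g, |supVal f g - e| ∂pat ⌊α * N⌋₊ N) atTop (𝓝 0) := by
    have h1 : Tendsto (fun N : ℕ => 2 * Real.exp (α * (2 * B) ^ 2 / 2) / √(N : ℝ)) atTop (𝓝 0) :=
      tendsto_const_nhds.div_atTop (Real.tendsto_sqrt_atTop.comp tendsto_natCast_atTop_atTop)
    have h2 := h1.add (a2.sub_const e).abs
    rw [sub_self, abs_zero, add_zero] at h2
    refine squeeze_zero' (Eventually.of_forall fun N => integral_nonneg fun _ => abs_nonneg _) ?_ h2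
    filter_upwards [eventually_ge_atTop 1] with N hN
    have hN' : (0 : ℝ) < N := by exact_mod_cast hN
    have h0 : 0 < √(N : ℝ) := Real.sqrt_pos.2 hN'
    have b0 : ∀ g g' : Fin ⌊α * N⌋₊ → E N, (∀ x, |∑ b, f (fld N (g b, x)) -
        ∑ b, f (fld N (g' b, x))| ≤ 2 * B) → supVal f g ≤ supVal f g' + 1 / N * (2 * B) :=
      fun g g' h => supVal_le fun x hx => by
        have c1 := mul_le_mul_of_nonneg_left (abs_le.1 (h x)).2 (show 0 ≤ 1 / (N : ℝ) by positivity)
        linarith [le_supVal hB g' hx]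
    have b1 := conc_gen (σ := stdGaussian (E N)) (meas_supVal (M := ⌊α * N⌋₊) hf hB)
      (abs_supVal hB) (c := 1 / N * (2 * B)) (by positivity) (fun g a r => abs_le.2
        ⟨by linarith [b0 g (Function.update g a r) fun x =>
            (abs_sub_comm _ _).trans_le (abs_update_le (y := fld N) hB g a r x)],
          by linarith [b0 _ g (abs_update_le (y := fld N) hB g a r)]⟩) h0
    have b2 : (⌊α * N⌋₊ : ℝ) * (1 / N * (2 * B)) ^ 2 * √(N : ℝ) ^ 2 / 2 ≤ α * (2 * B) ^ 2 / 2 := by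
      have := mul_le_mul_of_nonneg_right (hM N) (sq_nonneg (2 * B))
      rw [Real.sq_sqrt hN'.le]
      refine div_le_div_of_nonneg_right (le_trans (le_of_eq ?_) this) zero_le_two
      field_simp
    have i1 := int_supVal (M := ⌊α * N⌋₊) (N := N) hf hB
    have i2 : Integrable (fun g => |supVal f g - ∫ g, supVal f g ∂pat ⌊α * N⌋₊ N|) _ :=
      (i1.sub (integrable_const _)).abs
    have b3 := integral_mono_of_nonneg (μ := pat ⌊α * N⌋₊ N) (f := fun g => |supVal f g - e|)
      (ae_of_all _ fun _ => abs_nonneg _)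
      (i2.add (integrable_const (|∫ g, supVal f g ∂pat ⌊α * N⌋₊ N - e|)))
      (ae_of_all _ fun g => abs_sub_le _ _ _)
    rw [integral_add' i2 (integrable_const _)] at b3
    simp only [integral_const, probReal_univ, smul_eq_mul, one_mul] at b3
    refine b3.trans (add_le_add_left ?_ _)
    rw [le_div_iff₀' h0]
    exact b1.trans (by gcongr)
  refine ⟨e, hG, fun Ω _ P g hg => ⟨fun N => (of_law ((hg N).indep.hasLaw_pi (hg N).law)
    (int_supVal hf hB)).1, a3.congr fun N => ?_⟩⟩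
  exact (of_law (u := fun g => |supVal f g - e|) ((hg N).indep.hasLaw_pi (hg N).law)
    ((int_supVal hf hB).sub (integrable_const e)).abs).2.symm

end Vale.Agent.N157
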