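import Vale.Agent.N157.Fin
import Vale.Agent.N157.Defs
import Vale.Agent.P157W88.Main

/-! The limit of the pressure for unbounded potentials. -/

namespace Vale.Agent.N157

open MeasureTheory ProbabilityTheory Filter Topology Vale.Agent.P157.Par Vale.Agent.P157.Sph
  Vale.Agent.P157W88
open scoped InnerProductSpace

/-- the law of the patterns -/
noncomputable abbrev pat (M N : ℕ) : Measure (Fin M → E N) :=
  Measure.pi fun _ => stdGaussian (E N)

/-- the local field -/
noncomputable def fld (N : ℕ) (p : E N × E N) : ℝ := ⟪p.1, p.2⟫_ℝ / √(N : ℝ)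

theorem meas_fld (N : ℕ) : Measurable (fld N) := by unfold fld; fun_prop

theorem press_LZ {M N : ℕ} (μ : Measure (E N)) (f : ℝ → ℝ) (g : Fin M → E N) :
    press μ f g = 1 / N * LZ μ (fld N) (fun _ => f) g := rfl

theorem law_fld {N : ℕ} (hN : 1 ≤ N) {x : E N} (hx : ‖x‖ = √N) :
    (stdGaussian (E N)).map (fun g => fld N (g, x)) = gam := by
  have h0 : 0 < √(N : ℝ) := Real.sqrt_pos.2 (by exact_mod_cast hN)
  have h := IsGaussian.map_eq_gaussianReal (μ := stdGaussian (E N)) ((√(N : ℝ))⁻¹ • innerSL ℝ x)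
  rw [integral_strongDual_stdGaussian, variance_dual_stdGaussian, norm_smul, innerSL_apply_norm, hx,
    Real.norm_eq_abs, abs_of_pos (inv_pos.2 h0), inv_mul_cancel₀ h0.ne', one_pow,
    Real.toNNReal_one] at h
  refine Eq.trans ?_ h
  congr 1
  ext g
  simp [fld, real_inner_comm, div_eq_inv_mul]

theorem cube_ae (N : ℕ) : ∀ᵐ x ∂cubeLaw N, ‖x‖ = √N := by
  have hm : MeasurableSet {x : E N | ∀ i, x i = 1 ∨ x i = -1} := by
    simp only [Set.ofPred_forall]
    exact MeasurableSet.iInter fun i => (measurableSet_eq_fun (by fun_prop) measurable_const).union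
      (measurableSet_eq_fun (by fun_prop) measurable_const)
  have : ∀ᵐ x ∂cubeLaw N, x ∈ {x : E N | ∀ i, x i = 1 ∨ x i = -1} := ae_cond_mem hm
  filter_upwards [this] with x hx
  rw [EuclideanSpace.norm_eq, Finset.sum_congr rfl (g := fun _ => 1) fun i _ => by
    rcases hx i with h | h <;> simp [h]]
  simp

/-- truncation -/
noncomputable def tr (f : ℝ → ℝ) (K R : ℕ) (x : ℝ) : ℝ := max (min (f x) K) (-R)

variable {f : ℝ → ℝ}

theorem tr_meas (hf : Measurable f) (K R : ℕ) : Measurable (tr f K R) := by unfold tr; fun_prop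

theorem tr_bd (K R : ℕ) (x : ℝ) : |tr f K R x| ≤ K + R := by
  have h1 : (0 : ℝ) ≤ K := Nat.cast_nonneg _
  have h2 : (0 : ℝ) ≤ R := Nat.cast_nonneg _
  exact abs_le.2 ⟨le_max_of_le_right (by linarith),
    max_le ((min_le_right _ _).trans (by linarith)) (by linarith)⟩

theorem cls_of_bdd (hf : Measurable f) {B : ℝ} (hB : ∀ x, |f x| ≤ B) : Cls gam f :=
  ⟨hf, Integrable.of_bound hf.aestronglyMeasurable B (ae_of_all _ hB),
    Integrable.of_bound hf.exp.aestronglyMeasurable (Real.exp B) (ae_of_all _ fun x => by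
      rw [Real.norm_eq_abs, abs_of_pos (Real.exp_pos _)]
      exact Real.exp_le_exp.2 (abs_le.1 (hB x)).2)⟩

theorem tr_cls (hf : Measurable f) (K R : ℕ) : Cls gam (tr f K R) :=
  cls_of_bdd (tr_meas hf K R) (tr_bd K R)

theorem min_cls (hf : Cls gam f) (K : ℝ) : Cls gam fun x => min (f x) K :=
  ⟨hf.meas.min measurable_const, hf.int.inf (integrable_const K),
    hf.iexp.mono' (hf.meas.min measurable_const).exp.aestronglyMeasurable (ae_of_all _ fun x => by
      rw [Real.norm_eq_abs, abs_of_pos (Real.exp_pos _)]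
      exact Real.exp_le_exp.2 (min_le_left _ _))⟩

theorem tail {u : ℝ → ℝ} (hu : Integrable u gam) {c : ℕ → ℝ} (h0 : ∀ n, 0 ≤ c n)
    (hc : Tendsto c atTop atTop) : Tendsto (fun n => ∫ t, max (u t - c n) 0 ∂gam) atTop (𝓝 0) := by
  have := tendsto_integral_of_dominated_convergence (μ := gam) (F := fun n t => max (u t - c n) 0)
    (f := fun _ => 0) (fun t => |u t|)
    (fun n => (hu.sub (integrable_const (c n))).pos_part.aestronglyMeasurable) hu.abs
    (fun n => ae_of_all _ fun t => by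
      rw [Real.norm_eq_abs, abs_of_nonneg (le_max_right _ _)]
      exact max_le (by linarith [le_abs_self (u t), h0 n]) (abs_nonneg _))
    (ae_of_all _ fun t => tendsto_const_nhds.congr' (by
      filter_upwards [hc.eventually_ge_atTop (u t)] with n hn
      rw [max_eq_right (by linarith)]))
  simpa using this

theorem tail_exp (hf : Cls gam f) :
    Tendsto (fun K : ℕ => ∫ t, max (Real.exp (f t) - Real.exp K) 0 ∂gam) atTop (𝓝 0) :=
  tail hf.iexp (fun _ => (Real.exp_pos _).le)
    (Real.tendsto_exp_atTop.comp tendsto_natCast_atTop_atTop)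

theorem exp_le_tr (K R : ℕ) (x : ℝ) :
    Real.exp (f x) ≤ Real.exp (tr f K R x) + max (Real.exp (f x) - Real.exp K) 0 := by
  rcases le_total (f x) K with h | h
  · have : f x ≤ tr f K R x := le_max_of_le_left (le_min le_rfl h)
    linarith [Real.exp_le_exp.2 this, le_max_right (Real.exp (f x) - Real.exp K) 0]
  · have : (K : ℝ) ≤ tr f K R x := le_max_of_le_left (le_min h le_rfl)
    linarith [Real.exp_le_exp.2 this, le_max_left (Real.exp (f x) - Real.exp K) 0]

theorem approx (hf : Cls gam f) {ε : ℝ} (hε : 0 < ε) : ∃ (T : ℝ) (n : ℕ), ∀ K ≥ n, ∀ R ≥ n,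
    del f (tr f K R) T + del (tr f K R) f T ≤ ε := by
  have w2 : ∀ T : ℝ, Integrable (fun t => max (-f t - T) 0) gam := fun T =>
    (hf.int.neg.sub (integrable_const T)).pos_part
  obtain ⟨T, hT⟩ := ((tail hf.int.neg (fun n => Nat.cast_nonneg n)
    tendsto_natCast_atTop_atTop).eventually_le_const (show 0 < ε / 4 by positivity)).exists
  simp only [Pi.neg_apply] at hT
  have h1 := ((tail_exp hf).const_mul (Real.exp T)).eventually_le_const
    (show Real.exp T * 0 < ε / 4 by rw [mul_zero]; positivity)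
  have h2 := ((Real.tendsto_exp_neg_atTop_nhds_zero.comp tendsto_natCast_atTop_atTop).const_mul
    (Real.exp T)).eventually_le_const (show Real.exp T * 0 < ε / 4 by rw [mul_zero]; positivity)
  obtain ⟨n, hn⟩ := eventually_atTop.1 (h1.and h2)
  refine ⟨T, n, fun K hK R hR => ?_⟩
  have a1 := (hn K hK).1
  have a2 := (hn R hR).2
  have b1 := integral_mono_of_nonneg (μ := gam)
    (f := fun t => max (Real.exp (f t) - Real.exp (tr f K R t)) 0)
    (ae_of_all _ fun t => le_max_right _ _)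
    (hf.iexp.sub (integrable_const (Real.exp K))).pos_part (ae_of_all _ fun t =>
      max_le (sub_le_iff_le_add'.2 (exp_le_tr K R t)) (le_max_right _ _))
  have b2 := integral_mono_of_nonneg (μ := gam) (f := fun t => max (-tr f K R t - T) 0)
    (ae_of_all _ fun t => le_max_right _ _) (w2 T) (ae_of_all _ fun t => by
      refine max_le ?_ (le_max_right _ _)
      have h3 : min (f t) K ≤ tr f K R t := le_max_left _ _
      have h4 : (0 : ℝ) ≤ K := Nat.cast_nonneg _
      have h5 : (0 : ℝ) ≤ T := Nat.cast_nonneg _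
      rcases min_cases (f t) K with h | h
      · exact le_max_of_le_left (by linarith [h.1])
      · exact le_max_of_le_right (by linarith [h.1]))
  have b3 := integral_mono_of_nonneg (μ := gam)
    (f := fun t => max (Real.exp (tr f K R t) - Real.exp (f t)) 0)
    (ae_of_all _ fun t => le_max_right _ _) (integrable_const (Real.exp (-R)))
    (ae_of_all _ fun t => by
      refine max_le ?_ (Real.exp_pos _).le
      rcases max_cases (min (f t) K) (-R : ℝ) with h | h
      · have : tr f K R t ≤ f t := h.1.trans_le (min_le_left _ _)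
        linarith [Real.exp_le_exp.2 this, Real.exp_pos (-R : ℝ)]
      · have : tr f K R t = -R := h.1
        rw [this]
        linarith [Real.exp_pos (f t)])
  simp only [Pi.sub_apply, integral_const, probReal_univ, smul_eq_mul, one_mul,
    Function.comp_apply] at b1 b3 a2
  have c1 := mul_le_mul_of_nonneg_left b1 (Real.exp_pos T).le
  have c3 := mul_le_mul_of_nonneg_left b3 (Real.exp_pos T).le
  unfold del
  linarith

theorem of_law {Ω Z : Type*} [MeasurableSpace Ω] [MeasurableSpace Z] {P : Measure Ω} {ν : Measure Z}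
    {T : Ω → Z} (h : HasLaw T ν P) {u : Z → ℝ} (hu : Integrable u ν) :
    Integrable (fun ω => u (T ω)) P ∧ ∫ ω, u (T ω) ∂P = ∫ z, u z ∂ν :=
  ⟨(h.map_eq ▸ hu : Integrable u (P.map T)).comp_aemeasurable h.aemeasurable,
    h.integral_comp hu.aestronglyMeasurable⟩

section Ext

variable {μ : (N : ℕ) → Measure (E N)} (hp : ∀ N, 1 ≤ N → IsProbabilityMeasure (μ N))
  (hn : ∀ N : ℕ, ∀ᵐ x ∂μ N, ‖x‖ = √N) {α : ℝ} (hα : 0 < α)

/-- the mean pressure -/
noncomputable def mp (μ : (N : ℕ) → Measure (E N)) (α : ℝ) (f : ℝ → ℝ) (N : ℕ) : ℝ :=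
  ∫ g, press (μ N) f g ∂pat ⌊α * N⌋₊ N

theorem Limit.canon {L : ℝ} (h : Limit μ α f L) : Tendsto (mp μ α f) atTop (𝓝 L) :=
  (h (fun N => Fin ⌊α * N⌋₊ → E N) (fun N => pat _ N) (fun _ a ω => ω a) fun N =>
    ⟨inferInstance, iIndepFun_pi (X := fun _ => id) fun _ => aemeasurable_id,
      fun a => (measurePreserving_eval (fun _ => stdGaussian (E N)) a).hasLaw⟩).2

include hp hn

theorem int_press (hf : Cls gam f) {N : ℕ} (hN : 1 ≤ N) (M : ℕ) :
    Integrable (fun g => press (μ N) f g) (pat M N) := by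
  have := hp N hN
  exact (int_LZ (meas_fld N) ((hn N).mono fun x hx => law_fld hN hx) fun _ => hf).const_mul _

include hα

theorem close {f' : ℝ → ℝ} (hf : Cls gam f) (hf' : Cls gam f') {T ε : ℝ}
    (h : del f f' T + del f' f T ≤ ε) {N : ℕ} (hN : 1 ≤ N) :
    ∫ g, |press (μ N) f g - press (μ N) f' g| ∂pat ⌊α * N⌋₊ N ≤ α * ε := by
  have := hp N hN
  have hN' : (0 : ℝ) < N := by exact_mod_cast hN
  have a1 := abs_step (meas_fld N) ((hn N).mono fun x hx => law_fld hN hx) hf hf' T ⌊α * N⌋₊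
  have a2 : (⌊α * N⌋₊ : ℝ) ≤ α * N := Nat.floor_le (by positivity)
  have a3 : ∀ u u' : ℝ → ℝ, 0 ≤ del u u' T := fun u u' => add_nonneg
    (mul_nonneg (Real.exp_pos _).le (integral_nonneg fun _ => le_max_right _ _))
    (integral_nonneg fun _ => le_max_right _ _)
  simp only [press_LZ, ← mul_sub, abs_mul, integral_const_mul]
  rw [abs_of_pos (by positivity), one_div, inv_mul_le_iff₀ hN']
  have a4 := mul_le_mul a2 h (add_nonneg (a3 f f') (a3 f' f)) (by positivity)
  linarith

theorem close_mp {f' : ℝ → ℝ} (hf : Cls gam f) (hf' : Cls gam f') {T ε : ℝ}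
    (h : del f f' T + del f' f T ≤ ε) {N : ℕ} (hN : 1 ≤ N) :
    |mp μ α f N - mp μ α f' N| ≤ α * ε := by
  rw [mp, mp, ← integral_sub (int_press hp hn hf hN _) (int_press hp hn hf' hN _)]
  exact abs_integral_le_integral_abs.trans (close hp hn hα hf hf' h hN)

omit hn in
theorem conc_press (hf : Measurable f) {B : ℝ} (hB : ∀ t, |f t| ≤ B) :
    Tendsto (fun N : ℕ => ∫ g, |press (μ N) f g - mp μ α f N| ∂pat ⌊α * N⌋₊ N) atTop (𝓝 0) := by
  have h1 : Tendsto (fun N : ℕ => 2 * Real.exp (α * (2 * B) ^ 2 / 2) / √(N : ℝ)) atTop (𝓝 0) :=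
    tendsto_const_nhds.div_atTop (Real.tendsto_sqrt_atTop.comp tendsto_natCast_atTop_atTop)
  refine squeeze_zero' (Eventually.of_forall fun N => integral_nonneg fun _ => abs_nonneg _) ?_ h1
  filter_upwards [eventually_ge_atTop 1] with N hN
  have := hp N hN
  have hN' : (0 : ℝ) < N := by exact_mod_cast hN
  have h0 : 0 < √(N : ℝ) := Real.sqrt_pos.2 hN'
  have a1 := conc (μ := μ N) (σ := stdGaussian (E N)) (meas_fld N) hf hB ⌊α * N⌋₊ (inv_pos.2 h0)
  have a2 : (⌊α * N⌋₊ : ℝ) ≤ α * N := Nat.floor_le (by positivity)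
  have a3 : (⌊α * N⌋₊ : ℝ) * (2 * B) ^ 2 * (√(N : ℝ))⁻¹ ^ 2 / 2 ≤ α * (2 * B) ^ 2 / 2 := by
    rw [inv_pow, Real.sq_sqrt hN'.le, mul_right_comm]
    refine div_le_div_of_nonneg_right (mul_le_mul_of_nonneg_right ?_ (sq_nonneg _)) zero_le_two
    rwa [← div_eq_mul_inv, div_le_iff₀ hN']
  simp only [mp, press_LZ, integral_const_mul, ← mul_sub, abs_mul]
  rw [abs_of_pos (by positivity), le_div_iff₀ h0]
  refine le_trans (le_of_eq ?_) (a1.trans (by gcongr))
  have a4 : 1 / (N : ℝ) * √N = (√(N : ℝ))⁻¹ := by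
    field_simp
    rw [Real.sq_sqrt hN'.le]
  rw [mul_right_comm, a4]

theorem limits (hf : Cls gam f) {L : ℝ} (h : Tendsto (mp μ α f) atTop (𝓝 L)) :
    Limit μ α f L ∧ LimitL1 μ α f L := by
  have h1 : Tendsto (fun N : ℕ => ∫ g, |press (μ N) f g - L| ∂pat ⌊α * N⌋₊ N) atTop (𝓝 0) := by
    refine tendsto_order.2 ⟨fun a ha => Eventually.of_forall fun N =>
      ha.trans_le (integral_nonneg fun _ => abs_nonneg _), fun ε hε => ?_⟩
    obtain ⟨T, n, hT⟩ := approx hf (show 0 < ε / (4 * α) by positivity)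
    have a0 := tr_cls hf.meas n n
    have a1 := (conc_press hp hα a0.meas (tr_bd n n)).eventually_lt_const
      (show 0 < ε / 4 by positivity)
    have a2 := ((h.sub_const L).abs).eventually_lt_const (show |L - L| < ε / 4 by
      rw [sub_self, abs_zero]; positivity)
    filter_upwards [a1, a2, eventually_ge_atTop 1] with N b1 b2 hN
    have b3 := close hp hn hα hf a0 (hT n le_rfl n le_rfl) hN
    have b4 := close_mp hp hn hα hf a0 (hT n le_rfl n le_rfl) hN
    have i1 := int_press hp hn hf hN ⌊α * N⌋₊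
    have i2 := int_press hp hn a0 hN ⌊α * N⌋₊
    have i3 : Integrable (fun g => |press (μ N) f g - press (μ N) (tr f n n) g|) _ := (i1.sub i2).abs
    have i4 : Integrable (fun g => |press (μ N) (tr f n n) g - mp μ α (tr f n n) N|) _ :=
      (i2.sub (integrable_const _)).abs
    have b5 := integral_mono_of_nonneg (μ := pat ⌊α * N⌋₊ N) (f := fun g => |press (μ N) f g - L|)
      (ae_of_all _ fun _ => abs_nonneg _)
      ((i3.add i4).add (integrable_const (|mp μ α (tr f n n) N - L|))) (ae_of_all _ fun g =>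
        (abs_sub_le _ (mp μ α (tr f n n) N) _).trans (add_le_add_left (abs_sub_le _ _ _) _))
    rw [integral_add' (i3.add i4) (integrable_const _), integral_add' i3 i4] at b5
    simp only [integral_const, probReal_univ, smul_eq_mul, one_mul] at b5
    have b6 := abs_sub_le (mp μ α (tr f n n) N) (mp μ α f N) L
    rw [abs_sub_comm] at b4
    have b7 : α * (ε / (4 * α)) = ε / 4 := by field_simp
    linarith
  refine ⟨fun Ω _ P g hg => ⟨fun N hN => (of_law ((hg N).indep.hasLaw_pi (hg N).law)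
    (int_press hp hn hf hN _)).1, h.congr' ?_⟩, fun Ω _ P g hg => h1.congr' ?_⟩
  · filter_upwards [eventually_ge_atTop 1] with N hN
    exact (of_law ((hg N).indep.hasLaw_pi (hg N).law) (int_press hp hn hf hN _)).2.symm
  · filter_upwards [eventually_ge_atTop 1] with N hN
    exact (of_law (u := fun g => |press (μ N) f g - L|) ((hg N).indep.hasLaw_pi (hg N).law)
      ((int_press hp hn hf hN _).sub (integrable_const L)).abs).2.symm

/-- from bounded potentials to potentials with finite Jensen bounds -/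
theorem extend {C : ℕ → (ℕ → ℝ) → (ℕ → ℝ) → ℝ → Prop} {S : (ℝ → ℝ) → Set ℝ}
    (hS : ∀ u y, y ∈ S u ↔ ∃ k m q, Exponents k m ∧ Path k q ∧ q k < 1 ∧
      C k m q (y - α * patternPart u k m q))
    (hb : ∀ u, Measurable u → ∀ B, (∀ x, |u x| ≤ B) → ∃ L, Limit μ α u L ∧ IsGLB (S u) L)
    (hf : Cls gam f) : ∃ L, Limit μ α f L ∧ LimitL1 μ α f L ∧ IsGLB (S f) L := by
  have hU : ∀ y ∈ S f, ∀ ε > 0, ∀ᶠ N in atTop, mp μ α f N < y + ε := by
    intro y hy ε hε
    obtain ⟨k, m, q, hm, hq, h1, hC⟩ := (hS f y).1 hy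
    obtain ⟨T, n, hT⟩ := approx hf (show 0 < ε / (4 * α) by positivity)
    have a1 := psi_tendsto hm hq h1 (B := n) (F := fun R => tr f n R) (min_cls hf n)
      (fun R => tr_cls hf.meas n R) (fun R x => ⟨le_max_left _ _, max_le (min_le_right _ _)
        (by linarith [(Nat.cast_nonneg R : (0 : ℝ) ≤ R), (Nat.cast_nonneg n : (0 : ℝ) ≤ n)])⟩)
      fun x => tendsto_const_nhds.congr' (by
        filter_upwards [tendsto_natCast_atTop_atTop.eventually_ge_atTop (-min (f x) n)] with R hR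
        exact (max_eq_left (by linarith)).symm)
    have a2 := psi_mono hm hq h1 (min_cls hf n) hf fun x => min_le_left _ _
    obtain ⟨R, hR, a3⟩ := ((eventually_ge_atTop n).and (a1.eventually_lt_const
      (lt_add_of_pos_right _ (show 0 < ε / (4 * α) by positivity)))).exists
    obtain ⟨L, hL, hG⟩ := hb _ (tr_meas hf.meas n R) _ (tr_bd n R)
    have a4 := hG.1 ((hS (tr f n R) (y - α * patternPart f k m q +
      α * patternPart (tr f n R) k m q)).2 ⟨k, m, q, hm, hq, h1, by rwa [add_sub_cancel_right]⟩)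
    filter_upwards [(Limit.canon hL).eventually_lt_const
      (lt_add_of_pos_right _ (show 0 < ε / 4 by positivity)), eventually_ge_atTop 1] with N b1 hN
    have b2 := (abs_le.1 (close_mp hp hn hα hf (tr_cls hf.meas n R) (hT n le_rfl R hR) hN)).2
    have b3 := mul_le_mul_of_nonneg_left (a3.le.trans (add_le_add_left a2 _)) hα.le
    have b7 : α * (ε / (4 * α)) = ε / 4 := by field_simp
    linarith
  have hL : ∀ ε > 0, ∃ y ∈ S f, ∀ᶠ N in atTop, y < mp μ α f N + ε := by
    intro ε hε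
    obtain ⟨T, n, hT⟩ := approx hf (show 0 < ε / (4 * α) by positivity)
    obtain ⟨K, hK, a3⟩ := ((eventually_ge_atTop n).and
      (((tail_exp hf).const_mul (Real.exp n)).eventually_le_const
        (show Real.exp n * 0 < ε / (4 * α) by rw [mul_zero]; positivity))).exists
    obtain ⟨L, hL, hG⟩ := hb _ (tr_meas hf.meas K n) _ (tr_bd K n)
    obtain ⟨y, hy, -, a4⟩ := hG.exists_between (lt_add_of_pos_right L (show 0 < ε / 4 by positivity))
    obtain ⟨k, m, q, hm, hq, h1, hC⟩ := (hS _ y).1 hy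
    have a5 := psi_comp hm hq h1 (R := n) hf (tr_cls hf.meas K n)
      (hf.iexp.sub (integrable_const (Real.exp K))).pos_part
      fun x => ⟨le_max_right _ _, le_max_right _ _, exp_le_tr K n x⟩
    refine ⟨y - α * patternPart (tr f K n) k m q + α * patternPart f k m q,
      (hS _ _).2 ⟨k, m, q, hm, hq, h1, by rwa [add_sub_cancel_right]⟩, ?_⟩
    filter_upwards [(Limit.canon hL).eventually_const_lt
      (sub_lt_self _ (show 0 < ε / 4 by positivity)), eventually_ge_atTop 1] with N b1 hN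
    have b2 := (abs_le.1 (close_mp hp hn hα hf (tr_cls hf.meas K n) (hT K hK n le_rfl) hN)).1
    have b3 := mul_le_mul_of_nonneg_left (a5.trans (add_le_add_right a3 _)) hα.le
    have b7 : α * (ε / (4 * α)) = ε / 4 := by field_simp
    linarith
  obtain ⟨y₀, hy₀, h₀⟩ := hL 1 one_pos
  have hG := isGLB_csInf ⟨y₀, hy₀⟩ ⟨y₀ - 2, fun y hy => by
    obtain ⟨N, b1, b2⟩ := ((hU y hy 1 one_pos).and h₀).exists
    linarith⟩
  have ht : Tendsto (mp μ α f) atTop (𝓝 (sInf (S f))) := by
    refine tendsto_order.2 ⟨fun a ha => ?_, fun a ha => ?_⟩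
    · obtain ⟨y, hy, h⟩ := hL _ (sub_pos.2 ha)
      filter_upwards [h] with N hN
      linarith [hG.1 hy]
    · obtain ⟨y, hy, -, h⟩ := hG.exists_between ha
      filter_upwards [hU y hy _ (sub_pos.2 h)] with N hN
      linarith
  exact ⟨_, (limits hp hn hα hf ht).1, (limits hp hn hα hf ht).2, hG⟩

end Ext

theorem isLUB_shift {ι : Type*} (p : ι → Prop) (T : ι → ℝ) (a y : ℝ) :
    IsLUB {z | ∃ r, p r ∧ z = a + T r} y ↔ IsLUB {z | ∃ r, p r ∧ z = T r} (y - a) := by
  constructor
  · rintro ⟨h1, h2⟩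
    refine ⟨?_, fun b hb => ?_⟩
    · rintro _ ⟨r, hr, rfl⟩
      linarith [h1 ⟨r, hr, rfl⟩]
    · have : y ≤ a + b := h2 (by rintro _ ⟨r, hr, rfl⟩; linarith [hb ⟨r, hr, rfl⟩])
      linarith
  · rintro ⟨h1, h2⟩
    refine ⟨?_, fun b hb => ?_⟩
    · rintro _ ⟨r, hr, rfl⟩
      linarith [h1 ⟨r, hr, rfl⟩]
    · have : y - a ≤ b - a := h2 (by rintro _ ⟨r, hr, rfl⟩; linarith [hb ⟨r, hr, rfl⟩])
      linarith

theorem cube_formula (hf : Cls gam f) {α : ℝ} (hα : 0 < α) :
    ∃ L : ℝ, Limit cubeLaw α f L ∧ LimitL1 cubeLaw α f L ∧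
      IsGLB {y | ∃ (k : ℕ) (m q : ℕ → ℝ), Exponents k m ∧ Path k q ∧ q k < 1 ∧
        IsLUB {y | ∃ r, Path k r ∧ y = parisi α f k m q r} y} L :=
  extend (fun N _ => cubeLaw_prob N) cube_ae hα
    (C := fun k m q c => IsLUB {z | ∃ r, Path k r ∧ z = spinPart k m r +
      1 / 2 * ∑ l ∈ Finset.range (k + 1), (m (l + 1) - m l) * r l * q l} c)
    (S := fun u => {y | ∃ (k : ℕ) (m q : ℕ → ℝ), Exponents k m ∧ Path k q ∧ q k < 1 ∧
      IsLUB {y | ∃ r, Path k r ∧ y = parisi α u k m q r} y})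
    (fun u y => by simp only [Set.mem_ofPred_eq, parisi, add_assoc, isLUB_shift])
    (fun u hu B hB => by
      obtain ⟨L, h1, h2⟩ := parisi_formula_all hu hB hα
      exact ⟨L, limit_of cube_prob (fun N _ => cubeLaw_eq N) hu hB h1, h2⟩) hf

theorem sphere_formula' (hf : Cls gam f) {α : ℝ} (hα : 0 < α) :
    ∃ L : ℝ, Limit sphereLaw α f L ∧ LimitL1 sphereLaw α f L ∧
      IsGLB {y | ∃ (k : ℕ) (m q : ℕ → ℝ), Exponents k m ∧ Path k q ∧ q k < 1 ∧
        y = α * patternPart f k m q + csPart k m q} L :=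
  extend (fun _ hN => sphereLaw_prob hN) sphereLaw_ae hα (C := fun k m q c => c = csPart k m q)
    (S := fun u => {y | ∃ (k : ℕ) (m q : ℕ → ℝ), Exponents k m ∧ Path k q ∧ q k < 1 ∧
      y = α * patternPart u k m q + csPart k m q})
    (fun u y => by simp only [Set.mem_ofPred_eq, sub_eq_iff_eq_add'])
    (fun u hu B hB => by
      obtain ⟨L, h1, h2⟩ := usphere_formula hu hB hα
      exact ⟨L, limit_of usphere_prob (fun N hN => sphereLaw_eq hN) hu hB h1, h2⟩) hf

end Vale.Agent.N157
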